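import Vale.Agent.P322.Full.F1
namespace P322

theorem rr_lip {y s : ℝ} (hy : 0 < y) (hys : y ≤ s) (hs : s ≤ 8 / 25) :
    rr s - rr y ≤ 8 / 5 * (Ph s - Ph y) := by
  have hD : ∀ x ∈ Set.Icc y s, HasDerivAt (fun x => rr x - 8 / 5 * Ph x)
      (rr' x - 8 / 5 * ath x) x := by
    intro x hx
    have hx1 : x ∈ Set.Ioo (0 : ℝ) 1 := ⟨by linarith [hx.1], by linarith [hx.2]⟩
    exact (hasDerivAt_rr' hx1).sub
      ((hasDerivAt_Ph ⟨by linarith [hx1.1], hx1.2⟩).const_mul _)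
  have hanti : AntitoneOn (fun x => rr x - 8 / 5 * Ph x) (Set.Icc y s) := by
    refine antitoneOn_of_deriv_nonpos (convex_Icc y s) ?_ ?_ ?_
    · exact fun x hx => (hD x hx).continuousAt.continuousWithinAt
    · exact fun x hx => (hD x (interior_subset hx)).differentiableAt.differentiableWithinAt
    · intro x hx
      have hx0 := interior_subset hx
      rw [(hD x hx0).deriv]
      have := F1 (s := x) (by linarith [hx0.1]) (by linarith [hx0.2])
      linarith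
  have h := hanti (Set.left_mem_Icc.2 hys) (Set.right_mem_Icc.2 hys) hys
  simp only at h
  linarith

/-- `N(u) = (4/5) Φ² - rr Φ + Rs` is nonnegative on `(0, 8/25]`. -/
theorem cross_N_nonneg {u : ℝ} (h0 : 0 < u) (h1 : u ≤ 8 / 25) :
    0 ≤ 4 / 5 * Ph u ^ 2 - rr u * Ph u + Rs u := by
  have hD : ∀ x ∈ Set.Ioc (0 : ℝ) u,
      HasDerivAt (fun x => 4 / 5 * Ph x ^ 2 - rr x * Ph x + Rs x)
        ((8 / 5 * ath x - rr' x) * Ph x) x := by
    intro x hx
    have hx1 : x ∈ Set.Ioo (0 : ℝ) 1 := ⟨hx.1, by linarith [hx.2]⟩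
    have hx2 : x ∈ Set.Ioo (-1 : ℝ) 1 := ⟨by linarith [hx1.1], hx1.2⟩
    have hP := hasDerivAt_Ph hx2
    have hr := hasDerivAt_rr' hx1
    have hR := rline_hasDerivAt_Rs hx2
    have h := (((hP.pow 2).const_mul (4 / 5)).sub (hr.mul hP)).add hR
    refine h.congr_deriv ?_
    have h2 := rr_mul_ath hx1
    rw [← h2]
    simp only [Nat.cast_ofNat]
    ring
  have hmono : ∀ t ∈ Set.Ioo (0 : ℝ) u,
      4 / 5 * Ph t ^ 2 - rr t * Ph t + Rs t ≤ 4 / 5 * Ph u ^ 2 - rr u * Ph u + Rs u := by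
    intro t ht
    have hsub : Set.Icc t u ⊆ Set.Ioc 0 u := fun x hx => ⟨ht.1.trans_le hx.1, hx.2⟩
    have hm : MonotoneOn (fun x => 4 / 5 * Ph x ^ 2 - rr x * Ph x + Rs x) (Set.Icc t u) := by
      refine monotoneOn_of_deriv_nonneg (convex_Icc t u) ?_ ?_ ?_
      · exact fun x hx => (hD x (hsub hx)).continuousAt.continuousWithinAt
      · exact fun x hx =>
          (hD x (hsub (interior_subset hx))).differentiableAt.differentiableWithinAt
      · intro x hx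
        have hx0 := hsub (interior_subset hx)
        rw [(hD x hx0).deriv]
        have hF := F1 (s := x) hx0.1 (by linarith [hx0.2])
        have hP := Ph_pos (s := x) hx0.1 (by linarith [hx0.2])
        exact mul_nonneg (by linarith) hP.le
    exact hm (Set.left_mem_Icc.2 ht.2.le) (Set.right_mem_Icc.2 ht.2.le) ht.2.le
  have hlow : ∀ t ∈ Set.Ioo (0 : ℝ) u,
      -(rr (8 / 25) * Ph t) ≤ 4 / 5 * Ph u ^ 2 - rr u * Ph u + Rs u := by
    intro t ht
    have ht1 : t ∈ Set.Ioo (0 : ℝ) 1 := ⟨ht.1, by linarith [ht.2]⟩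
    have h2 := hmono t ht
    have h3 := Rs_nonneg ht1
    have h4 : rr t ≤ rr (8 / 25) :=
      rr_monotoneOn ht1 ⟨by norm_num, by norm_num⟩ (by linarith [ht.2])
    have h5 := Ph_pos (s := t) ht.1 ht1.2.le
    have h6 : rr t * Ph t ≤ rr (8 / 25) * Ph t := mul_le_mul_of_nonneg_right h4 h5.le
    have h7 : 0 ≤ 4 / 5 * Ph t ^ 2 := by positivity
    linarith
  have hcont : ContinuousAt (fun t => -(rr (8 / 25) * Ph t)) 0 :=
    ((hasDerivAt_Ph (u := 0) (by norm_num)).continuousAt.const_mul _).neg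
  have hlim : Filter.Tendsto (fun t => -(rr (8 / 25) * Ph t)) (nhdsWithin 0 (Set.Ioi 0))
      (nhds 0) := by
    have := hcont.tendsto
    simp only [Ph_zero, mul_zero, neg_zero] at this
    exact this.mono_left nhdsWithin_le_nhds
  refine le_of_tendsto hlim ?_
  filter_upwards [Ioo_mem_nhdsGT h0] with t ht
  exact hlow t ht

/-- monotonicity of `A/Φ`, `A = (4/5) Φ² - Rs` -/
theorem cross_ratio {x s : ℝ} (hx : 0 < x) (hxs : x ≤ s) (hs : s ≤ 8 / 25) :
    (4 / 5 * Ph x ^ 2 - Rs x) / Ph x ≤ (4 / 5 * Ph s ^ 2 - Rs s) / Ph s := by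
  have hD : ∀ u ∈ Set.Icc x s, HasDerivAt (fun u => (4 / 5 * Ph u ^ 2 - Rs u) / Ph u)
      (ath u * (4 / 5 * Ph u ^ 2 - rr u * Ph u + Rs u) / Ph u ^ 2) u := by
    intro u hu
    have hu1 : u ∈ Set.Ioo (0 : ℝ) 1 := ⟨by linarith [hu.1], by linarith [hu.2]⟩
    have hu2 : u ∈ Set.Ioo (-1 : ℝ) 1 := ⟨by linarith [hu1.1], hu1.2⟩
    have hP := hasDerivAt_Ph hu2
    have hR := rline_hasDerivAt_Rs hu2
    have hpos := Ph_pos (s := u) hu1.1 hu1.2.le
    have h := (((hP.pow 2).const_mul (4 / 5)).sub hR).div hP hpos.ne'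
    refine h.congr_deriv ?_
    have h2 := rr_mul_ath hu1
    rw [← h2]
    congr 1
    simp only [Nat.cast_ofNat, Pi.sub_apply, Pi.pow_apply]
    ring
  have hm : MonotoneOn (fun u => (4 / 5 * Ph u ^ 2 - Rs u) / Ph u) (Set.Icc x s) := by
    refine monotoneOn_of_deriv_nonneg (convex_Icc x s) ?_ ?_ ?_
    · exact fun u hu => (hD u hu).continuousAt.continuousWithinAt
    · exact fun u hu => (hD u (interior_subset hu)).differentiableAt.differentiableWithinAt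
    · intro u hu
      have hu0 := interior_subset hu
      rw [(hD u hu0).deriv]
      have h0 : 0 < u := by linarith [hu0.1]
      have h1 := cross_N_nonneg h0 (by linarith [hu0.2])
      have h2 := ath_pos h0 (by linarith [hu0.2])
      positivity
  exact hm (Set.left_mem_Icc.2 hxs) (Set.right_mem_Icc.2 hxs) hxs

/-- cross-difference bound for `R` -/
theorem Rs_cross {x y s : ℝ} (hx : 0 < x) (hy : 0 < y) (hs0 : 0 < s) (hs : s ≤ 8 / 25)
    (hx1 : x < 1) (hy1 : y < 1) (h : Ph s = Ph x + Ph y) :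
    Rs s ≤ Rs x + Rs y + 8 / 5 * (Ph x * Ph y) := by
  have hPx := Ph_pos hx hx1.le
  have hPy := Ph_pos hy hy1.le
  have hPs := Ph_pos hs0 (by linarith)
  have hxs : x ≤ s := by
    by_contra hc
    push Not at hc
    have := Ph_strictMono ⟨hs0.le, by linarith⟩ ⟨hx.le, hx1.le⟩ hc
    linarith
  have hys : y ≤ s := by
    by_contra hc
    push Not at hc
    have := Ph_strictMono ⟨hs0.le, by linarith⟩ ⟨hy.le, hy1.le⟩ hc
    linarith
  have h1 := cross_ratio hx hxs hs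
  have h2 := cross_ratio hy hys hs
  rw [div_le_iff₀ hPx] at h1
  rw [div_le_iff₀ hPy] at h2
  have h3 : (4 / 5 * Ph s ^ 2 - Rs s) / Ph s * Ph s = 4 / 5 * Ph s ^ 2 - Rs s :=
    div_mul_cancel₀ _ hPs.ne'
  have h4 : (4 / 5 * Ph x ^ 2 - Rs x) + (4 / 5 * Ph y ^ 2 - Rs y)
      ≤ (4 / 5 * Ph s ^ 2 - Rs s) / Ph s * Ph s := by
    calc _ ≤ (4 / 5 * Ph s ^ 2 - Rs s) / Ph s * Ph x
            + (4 / 5 * Ph s ^ 2 - Rs s) / Ph s * Ph y := add_le_add h1 h2
      _ = (4 / 5 * Ph s ^ 2 - Rs s) / Ph s * Ph s := by rw [h]; ring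
  rw [h3, h] at h4
  nlinarith [h4]

theorem Ph_kappa {x : ℝ} (h0 : 0 < x) (h1 : x ≤ 8 / 25) : 8 / 5 * Ph x ≤ x ^ 2 / (1 + x ^ 2) := by
  have hx1 : x < 1 := by linarith
  have hR := Rs_nonneg (s := x) ⟨h0, hx1⟩
  have hR' : 2 * Ph x ≤ x * ath x := by
    unfold Rs at hR; unfold Ph; linarith
  have hu := ath_ub5 h0.le hx1
  have hp : x ^ 2 ≤ 64 / 625 := by nlinarith
  have hq : 561 / 625 ≤ 1 - x ^ 2 := by linarith
  have h5 : x ^ 5 / (5 * (1 - x ^ 2)) ≤ x ^ 5 * (125 / 561) := by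
    rw [div_le_iff₀ (by linarith)]
    have : 0 ≤ x ^ 5 := by positivity
    nlinarith [mul_le_mul_of_nonneg_left hq this]
  have h6 : ath x ≤ x + x ^ 3 / 3 + x ^ 5 * (125 / 561) := by linarith
  have h7 : x * ath x ≤ x * (x + x ^ 3 / 3 + x ^ 5 * (125 / 561)) :=
    mul_le_mul_of_nonneg_left h6 h0.le
  rw [le_div_iff₀ (by positivity)]
  have h8 : 8 / 5 * Ph x ≤ 4 / 5 * (x * (x + x ^ 3 / 3 + x ^ 5 * (125 / 561))) := by linarith
  have h9 : 8 / 5 * Ph x * (1 + x ^ 2)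
      ≤ 4 / 5 * (x * (x + x ^ 3 / 3 + x ^ 5 * (125 / 561))) * (1 + x ^ 2) :=
    mul_le_mul_of_nonneg_right h8 (by positivity)
  refine h9.trans ?_
  set p := x ^ 2 with hpdef
  have hp0 : 0 ≤ p := by positivity
  have e : 4 / 5 * (x * (x + x ^ 3 / 3 + x ^ 5 * (125 / 561))) * (1 + p)
      = p * (4 / 5 * (1 + p / 3 + p ^ 2 * (125 / 561)) * (1 + p)) := by
    rw [hpdef]; ring
  rw [e]
  have h10 : 4 / 5 * (1 + p / 3 + p ^ 2 * (125 / 561)) * (1 + p) ≤ 1 := by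
    have hp2 : p ^ 2 ≤ 64 / 625 * p := by nlinarith
    have hp3 : p ^ 3 ≤ 64 / 625 * p := by nlinarith [mul_nonneg hp0 hp0]
    nlinarith
  calc p * (4 / 5 * (1 + p / 3 + p ^ 2 * (125 / 561)) * (1 + p)) ≤ p * 1 :=
        mul_le_mul_of_nonneg_left h10 hp0
    _ = p := mul_one p

theorem rr_kappa {x : ℝ} (h0 : 8 / 25 ≤ x) (h1 : x < 1) : rr (8 / 25) ≤ x ^ 2 / (1 + x ^ 2) := by
  have hl := ath_lb3 (s := 8 / 25) (by norm_num) (by norm_num)
  have hr : rr (8 / 25) ≤ 64 / 689 := by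
    unfold rr
    have h2 : (8 / 25 : ℝ) / ((1 - (8 / 25) ^ 2) * ath (8 / 25))
        ≤ (8 / 25) / ((1 - (8 / 25) ^ 2) * (8 / 25 + (8 / 25) ^ 3 / 3)) := by
      apply div_le_div_of_nonneg_left (by norm_num) (by norm_num)
      exact mul_le_mul_of_nonneg_left hl (by norm_num)
    have h3 : (8 / 25 : ℝ) / ((1 - (8 / 25) ^ 2) * (8 / 25 + (8 / 25) ^ 3 / 3)) - 1 ≤ 64 / 689 := by
      norm_num
    linarith
  refine hr.trans ?_
  rw [le_div_iff₀ (by positivity)]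
  nlinarith
end P322
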