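import Vale.Agent.P322.Full.FDefs
namespace P322

/-- `F(s) = log 2 (1-s²) artanh s - s h(s)`, in a form continuous on `[0,1]` -/
noncomputable def ele_F (s : ℝ) : ℝ :=
  Real.log 2 / 2 * ((1 - s) * ((1 + s) * Real.log (1 + s)) - (1 + s) * ((1 - s) * Real.log (1 - s)))
    - s * hh s

noncomputable def ele_F1 (s : ℝ) : ℝ :=
  Real.log 2 * (1 - 2 * s * ath s) - hh s + s * ath s

noncomputable def ele_F2 (s : ℝ) : ℝ :=
  (2 - 2 * Real.log 2) * ath s - (2 * Real.log 2 - 1) * (s / (1 - s ^ 2))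

theorem ele_F_eq {s : ℝ} (hs : s ∈ Set.Ioo (-1 : ℝ) 1) :
    ele_F s = Real.log 2 * ((1 - s ^ 2) * ath s) - s * hh s := by
  have h1 : 0 < 1 + s := by linarith [hs.1]
  have h2 : 0 < 1 - s := by linarith [hs.2]
  unfold ele_F ath
  rw [Real.log_div h1.ne' h2.ne']
  ring

theorem ele_F_cont : Continuous ele_F := by
  have c1 : Continuous fun s : ℝ => (1 + s) * Real.log (1 + s) :=
    Real.continuous_mul_log.comp (by fun_prop : Continuous fun s : ℝ => 1 + s)
  have c2 : Continuous fun s : ℝ => (1 - s) * Real.log (1 - s) :=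
    Real.continuous_mul_log.comp (by fun_prop : Continuous fun s : ℝ => 1 - s)
  have c3 := hh_continuous
  unfold ele_F
  fun_prop

theorem ele_hF {s : ℝ} (hs : s ∈ Set.Ioo (-1 : ℝ) 1) : HasDerivAt ele_F (ele_F1 s) s := by
  have hg : 0 < 1 - s ^ 2 := by nlinarith [hs.1, hs.2]
  have h3 : HasDerivAt ath (1 / (1 - s ^ 2)) s := hasDerivAt_ath hs
  have h4 : HasDerivAt (fun t : ℝ => 1 - t ^ 2) (-(2 * s)) s := by
    have := (hasDerivAt_pow 2 s).const_sub 1
    simpa using this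
  have h5 : HasDerivAt hh (-ath s) s := hasDerivAt_hh hs
  have h := ((h4.mul h3).const_mul (Real.log 2)).sub ((hasDerivAt_id' s).mul h5)
  have e : Real.log 2 * (-(2 * s) * ath s + (1 - s ^ 2) * (1 / (1 - s ^ 2)))
      - (1 * hh s + s * -ath s) = ele_F1 s := by
    rw [mul_one_div_cancel hg.ne']
    unfold ele_F1
    ring
  rw [e] at h
  refine h.congr_of_eventuallyEq ?_
  filter_upwards [Ioo_mem_nhds hs.1 hs.2] with t ht
  rw [ele_F_eq ht]
  rfl

theorem ele_hF1 {s : ℝ} (hs : s ∈ Set.Ioo (-1 : ℝ) 1) : HasDerivAt ele_F1 (ele_F2 s) s := by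
  have h3 : HasDerivAt ath (1 / (1 - s ^ 2)) s := hasDerivAt_ath hs
  have h5 : HasDerivAt hh (-ath s) s := hasDerivAt_hh hs
  have h6 : HasDerivAt (fun t : ℝ => t * ath t) (1 * ath s + s * (1 / (1 - s ^ 2))) s :=
    (hasDerivAt_id' s).mul h3
  have h7 : HasDerivAt (fun t : ℝ => Real.log 2 * (1 - 2 * (t * ath t)) - hh t + t * ath t)
      (Real.log 2 * (-(2 * (1 * ath s + s * (1 / (1 - s ^ 2))))) - -ath s
        + (1 * ath s + s * (1 / (1 - s ^ 2)))) s :=
    ((((h6.const_mul 2).const_sub 1).const_mul (Real.log 2)).sub h5).add h6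
  have e : Real.log 2 * (-(2 * (1 * ath s + s * (1 / (1 - s ^ 2))))) - -ath s
        + (1 * ath s + s * (1 / (1 - s ^ 2))) = ele_F2 s := by
    unfold ele_F2
    ring
  rw [e] at h7
  refine h7.congr_of_eventuallyEq (Filter.Eventually.of_forall (fun t => ?_))
  unfold ele_F1
  ring

theorem ele_F1_zero : ele_F1 0 = 0 := by
  unfold ele_F1
  rw [hh_zero]
  ring

theorem ele_F_zero : ele_F 0 = 0 := by
  unfold ele_F
  simp

theorem ele_F_one : ele_F 1 = 0 := by
  unfold ele_F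
  rw [hh_one]
  simp

/-- sign of `F''` in terms of `rr` -/
theorem ele_F2_eq {s : ℝ} (hs : s ∈ Set.Ioo (0 : ℝ) 1) :
    ele_F2 s = ((2 - 2 * Real.log 2) - (2 * Real.log 2 - 1) * (1 + rr s)) * ath s := by
  have h := rr_mul_ath hs
  unfold ele_F2
  have e : s / (1 - s ^ 2) = rr s * ath s + ath s := by linarith
  rw [e]
  ring

theorem ele_c_pos : 0 < 2 * Real.log 2 - 1 := by
  have := Real.log_two_gt_d9
  linarith

/-- first region: `F' ≥ 0` -/
theorem ele_F1_nonneg_left {s : ℝ} (hs : s ∈ Set.Ioo (0 : ℝ) 1)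
    (h : (2 * Real.log 2 - 1) * (1 + rr s) ≤ 2 - 2 * Real.log 2) : 0 ≤ ele_F1 s := by
  have hm : MonotoneOn ele_F1 (Set.Icc 0 s) := by
    refine monotoneOn_of_deriv_nonneg (convex_Icc 0 s) ?_ ?_ ?_
    · intro t ht
      exact (ele_hF1 ⟨by linarith [ht.1], by linarith [ht.2, hs.2]⟩).continuousAt.continuousWithinAt
    · rw [interior_Icc]
      intro t ht
      exact (ele_hF1 ⟨by linarith [ht.1], by linarith [ht.2, hs.2]⟩).differentiableAt.differentiableWithinAt
    · rw [interior_Icc]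
      intro t ht
      have ht' : t ∈ Set.Ioo (0 : ℝ) 1 := ⟨ht.1, by linarith [ht.2, hs.2]⟩
      rw [(ele_hF1 ⟨by linarith [ht.1], by linarith [ht.2, hs.2]⟩).deriv, ele_F2_eq ht']
      have h1 : rr t ≤ rr s := rr_monotoneOn ht' hs ht.2.le
      have h2 := ath_pos ht'.1 ht'.2
      have h3 := ele_c_pos
      refine mul_nonneg ?_ h2.le
      nlinarith
  have := hm ⟨le_rfl, hs.1.le⟩ ⟨hs.1.le, le_rfl⟩ hs.1.le
  rwa [ele_F1_zero] at this

/-- second region: `F'` is antitone -/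
theorem ele_F1_anti_right {s t : ℝ} (hs : s ∈ Set.Ioo (0 : ℝ) 1) (hst : s ≤ t) (ht1 : t < 1)
    (h : 2 - 2 * Real.log 2 ≤ (2 * Real.log 2 - 1) * (1 + rr s)) : ele_F1 t ≤ ele_F1 s := by
  have hm : AntitoneOn ele_F1 (Set.Icc s t) := by
    refine antitoneOn_of_deriv_nonpos (convex_Icc s t) ?_ ?_ ?_
    · intro x hx
      exact (ele_hF1 ⟨by linarith [hx.1, hs.1], by linarith [hx.2]⟩).continuousAt.continuousWithinAt
    · rw [interior_Icc]
      intro x hx
      exact (ele_hF1 ⟨by linarith [hx.1, hs.1], by linarith [hx.2]⟩).differentiableAt.differentiableWithinAt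
    · rw [interior_Icc]
      intro x hx
      have hx' : x ∈ Set.Ioo (0 : ℝ) 1 := ⟨by linarith [hx.1, hs.1], by linarith [hx.2]⟩
      rw [(ele_hF1 ⟨by linarith [hx.1, hs.1], by linarith [hx.2]⟩).deriv, ele_F2_eq hx']
      have h1 : rr s ≤ rr x := rr_monotoneOn hs hx' hx.1.le
      have h2 := ath_pos hx'.1 hx'.2
      have h3 := ele_c_pos
      refine mul_nonpos_of_nonpos_of_nonneg ?_ h2.le
      nlinarith
  exact hm ⟨le_rfl, hst⟩ ⟨hst, le_rfl⟩ hst

theorem ele_F_nonneg {s : ℝ} (hs : s ∈ Set.Ioo (0 : ℝ) 1) : 0 ≤ ele_F s := by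
  rcases le_or_gt (ele_F1 s) 0 with hneg | hpos
  · -- either way `F' ≤ 0` on `[s,1)`
    rcases le_or_gt ((2 * Real.log 2 - 1) * (1 + rr s)) (2 - 2 * Real.log 2) with h | h
    · -- first region: `F(s) ≥ F(0) = 0`
      have hm : MonotoneOn ele_F (Set.Icc 0 s) := by
        refine monotoneOn_of_deriv_nonneg (convex_Icc 0 s) ele_F_cont.continuousOn ?_ ?_
        · rw [interior_Icc]
          intro t ht
          exact (ele_hF ⟨by linarith [ht.1], by linarith [ht.2, hs.2]⟩).differentiableAt.differentiableWithinAt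
        · rw [interior_Icc]
          intro t ht
          have ht' : t ∈ Set.Ioo (0 : ℝ) 1 := ⟨ht.1, by linarith [ht.2, hs.2]⟩
          rw [(ele_hF ⟨by linarith [ht.1], by linarith [ht.2, hs.2]⟩).deriv]
          refine ele_F1_nonneg_left ht' ?_
          have h1 : rr t ≤ rr s := rr_monotoneOn ht' hs ht.2.le
          have h3 := ele_c_pos
          nlinarith
      have := hm ⟨le_rfl, hs.1.le⟩ ⟨hs.1.le, le_rfl⟩ hs.1.le
      rwa [ele_F_zero] at this
    · have hm : AntitoneOn ele_F (Set.Icc s 1) := by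
        refine antitoneOn_of_deriv_nonpos (convex_Icc s 1) ele_F_cont.continuousOn ?_ ?_
        · rw [interior_Icc]
          intro t ht
          exact (ele_hF ⟨by linarith [ht.1, hs.1], ht.2⟩).differentiableAt.differentiableWithinAt
        · rw [interior_Icc]
          intro t ht
          rw [(ele_hF ⟨by linarith [ht.1, hs.1], ht.2⟩).deriv]
          exact (ele_F1_anti_right hs ht.1.le ht.2 h.le).trans hneg
      have := hm ⟨le_rfl, hs.2.le⟩ ⟨hs.2.le, le_rfl⟩ hs.2.le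
      rwa [ele_F_one] at this
  · have hm : MonotoneOn ele_F (Set.Icc 0 s) := by
      refine monotoneOn_of_deriv_nonneg (convex_Icc 0 s) ele_F_cont.continuousOn ?_ ?_
      · rw [interior_Icc]
        intro t ht
        exact (ele_hF ⟨by linarith [ht.1], by linarith [ht.2, hs.2]⟩).differentiableAt.differentiableWithinAt
      · rw [interior_Icc]
        intro t ht
        have ht' : t ∈ Set.Ioo (0 : ℝ) 1 := ⟨ht.1, by linarith [ht.2, hs.2]⟩
        rw [(ele_hF ⟨by linarith [ht.1], by linarith [ht.2, hs.2]⟩).deriv]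
        rcases le_or_gt ((2 * Real.log 2 - 1) * (1 + rr t)) (2 - 2 * Real.log 2) with h | h
        · exact ele_F1_nonneg_left ht' h
        · exact hpos.le.trans (ele_F1_anti_right ht' ht.2.le hs.2 h.le)
    have := hm ⟨le_rfl, hs.1.le⟩ ⟨hs.1.le, le_rfl⟩ hs.1.le
    rwa [ele_F_zero] at this

/-- `h(s) (1 + rr s) ≤ log 2` -/
theorem ele_key {s : ℝ} (hs : s ∈ Set.Ioo (0 : ℝ) 1) : rr s * hh s ≤ Real.log 2 - hh s := by
  have h := ele_F_nonneg hs
  rw [ele_F_eq ⟨by linarith [hs.1], hs.2⟩] at h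
  have hg : 0 < 1 - s ^ 2 := by nlinarith [hs.1, hs.2]
  have hz := ath_pos hs.1 hs.2
  have e : rr s * hh s = s * hh s / ((1 - s ^ 2) * ath s) - hh s := by
    unfold rr
    ring
  rw [e]
  have h1 : s * hh s / ((1 - s ^ 2) * ath s) ≤ Real.log 2 := by
    rw [div_le_iff₀ (mul_pos hg hz)]
    linarith
  linarith

/-- `2 E(s) ≤ -log(1-s²)` -/
theorem E_le {s : ℝ} (hs : s ∈ Set.Ioo (0 : ℝ) 1) :
    2 * (Rs s + rr s * hh s) ≤ -Real.log (1 - s ^ 2) := by
  have h := ele_key hs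
  have h2 := hh_eq (s := s) ⟨by linarith [hs.1], hs.2⟩
  unfold ell at h2
  unfold Rs
  linarith
end P322
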