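import Vale.Agent.P322.Full.QIneq
import Vale.Agent.P322.Full.ELe
namespace P322
theorem hasDerivAt_Ct {r : ℝ} (hr : r ∈ Set.Ioo (0 : ℝ) 1) :
    HasDerivAt Ct (-(1 / ((1 - r ^ 2) * ath r ^ 2)) + 11 / 10 / r ^ 2 + 9 / 10) r := by
  have h1 : 0 < 1 - r ^ 2 := by nlinarith [hr.1, hr.2]
  have h2 : 0 < ath r := ath_pos hr.1 hr.2
  have hr0 : r ≠ 0 := hr.1.ne'
  have h3 : HasDerivAt ath (1 / (1 - r ^ 2)) r := hasDerivAt_ath ⟨by linarith [hr.1], hr.2⟩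
  have h4 := h3.inv h2.ne'
  have h5 := (((hasDerivAt_inv hr0).sub_const 1).const_mul (11 / 10 : ℝ))
  have h6 := (((hasDerivAt_id' r).const_sub 1).const_mul (9 / 10 : ℝ))
  have h7 := (h4.sub h5).sub h6
  have e1 : Ct = ((ath⁻¹ - fun x => 11 / 10 * (x⁻¹ - 1)) - fun x => 9 / 10 * (1 - x)) := by
    funext x
    simp only [Ct, Pi.sub_apply, Pi.inv_apply, one_div]
  rw [e1]
  refine h7.congr_deriv ?_
  field_simp
  ring

theorem Ct_deriv_ge {r : ℝ} (h0 : 8 / 25 ≤ r) (h1 : r < 1) :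
    (2 * (Rs r + rr r * hh r) - rr r) / (r ^ 2 * ath r)
      ≤ -(1 / ((1 - r ^ 2) * ath r ^ 2)) + 11 / 10 / r ^ 2 + 9 / 10 := by
  have hr : r ∈ Set.Ioo (0 : ℝ) 1 := ⟨by linarith, h1⟩
  have h2 : 0 < 1 - r ^ 2 := by nlinarith [hr.1, hr.2]
  have h3 : 0 < ath r := ath_pos hr.1 hr.2
  have hr0 : 0 < r := hr.1
  have hE := E_le hr
  have hQ := Q_ineq h0 h1
  rw [div_le_iff₀ (by positivity)]
  have e2 : (-(1 / ((1 - r ^ 2) * ath r ^ 2)) + 11 / 10 / r ^ 2 + 9 / 10) * (r ^ 2 * ath r)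
      = -(r ^ 2 / ((1 - r ^ 2) * ath r)) + (11 / 10 + 9 / 10 * r ^ 2) * ath r := by
    field_simp
    ring
  rw [e2]
  have e3 : rr r = r / ((1 - r ^ 2) * ath r) - 1 := rfl
  have h4 : -Real.log (1 - r ^ 2) - rr r
      ≤ -(r ^ 2 / ((1 - r ^ 2) * ath r)) + (11 / 10 + 9 / 10 * r ^ 2) * ath r := by
    rw [e3]
    have e4 : r / ((1 - r ^ 2) * ath r) - r ^ 2 / ((1 - r ^ 2) * ath r)
        = r / (1 + r) / ath r := by
      have : 1 + r ≠ 0 := by linarith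
      have h5 : (1 : ℝ) - r ^ 2 = (1 - r) * (1 + r) := by ring
      have h6 : (1 : ℝ) - r ≠ 0 := by linarith
      rw [h5]
      field_simp
    have h7 : (1 - Real.log (1 - r ^ 2)) - r / (1 + r) / ath r
        ≤ (11 / 10 + 9 / 10 * r ^ 2) * ath r := by
      have h8 : ((1 - Real.log (1 - r ^ 2)) * ath r - r / (1 + r)) / ath r
          ≤ (11 / 10 + 9 / 10 * r ^ 2) * ath r ^ 2 / ath r :=
        div_le_div_of_nonneg_right hQ h3.le
      have e5 : ((1 - Real.log (1 - r ^ 2)) * ath r - r / (1 + r)) / ath r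
          = (1 - Real.log (1 - r ^ 2)) - r / (1 + r) / ath r := by
        rw [sub_div, mul_div_assoc, div_self h3.ne', mul_one]
      have e6 : (11 / 10 + 9 / 10 * r ^ 2) * ath r ^ 2 / ath r
          = (11 / 10 + 9 / 10 * r ^ 2) * ath r := by
        field_simp
      rw [e5, e6] at h8
      exact h8
    linarith
  linarith
end P322
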