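import Vale.Agent.P322.Full.F1
namespace P322
theorem Ct_nonneg_aux {r : ℝ} (h0 : 8 / 25 ≤ r) (h1 : r < 1) : 0 ≤ Ct r := by
  have hr0 : 0 < r := by linarith
  have hz : 0 < ath r := ath_pos hr0 h1
  have hub := ath_ub5 hr0.le h1
  have h2 : 0 < 1 - r ^ 2 := by nlinarith
  -- `z * (1-r)*(1.1+.9 r) ≤ r`
  have h3 : ath r * ((1 - r) * (11 / 10 + 9 / 10 * r)) ≤ r := by
    have h4 : 0 ≤ (1 - r) * (11 / 10 + 9 / 10 * r) := by nlinarith
    have h5 := mul_le_mul_of_nonneg_right hub h4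
    refine h5.trans ?_
    have e : (r + r ^ 3 / 3 + r ^ 5 / (5 * (1 - r ^ 2))) * ((1 - r) * (11 / 10 + 9 / 10 * r)) =
        (r * (1 + r ^ 2 / 3) * (1 - r ^ 2) * (11 / 10 + 9 / 10 * r)
          + r ^ 5 / 5 * (11 / 10 + 9 / 10 * r)) / (1 + r) := by
      have e1 : 1 - r ^ 2 = (1 - r) * (1 + r) := by ring
      have e2 : (1 - r) ≠ 0 := by linarith
      have e3 : (1 + r) ≠ 0 := by linarith
      rw [e1]
      field_simp
    rw [e, div_le_iff₀ (by linarith)]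
    have key : 0 ≤ -1 / 2 + r / 2 + 11 / 3 * r ^ 2 + 3 * r ^ 3 + 11 / 15 * r ^ 4 + 3 / 5 * r ^ 5 := by
      have k1 : 0 ≤ r - 8 / 25 := by linarith
      nlinarith [pow_pos hr0 3, pow_pos hr0 4, pow_pos hr0 5, mul_nonneg k1 k1, mul_nonneg hr0.le k1]
    nlinarith [mul_nonneg hr0.le key]
  unfold Ct
  have h6 : 1 / ath r - 11 / 10 * (1 / r - 1) - 9 / 10 * (1 - r) =
      (r - ath r * ((1 - r) * (11 / 10 + 9 / 10 * r))) / (ath r * r) := by
    field_simp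
    ring
  rw [h6]
  exact div_nonneg (by linarith) (by positivity)
end P322
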