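import Vale.Agent.P322.Full.FDefs
namespace P322

/-- a function with nonnegative derivative on `[0, 1)` -/
theorem F1_mono {f f' : ℝ → ℝ} {s : ℝ} (h0 : 0 ≤ s) (h1 : s < 1)
    (hd : ∀ x ∈ Set.Ico (0 : ℝ) 1, HasDerivAt f (f' x) x)
    (hn : ∀ x ∈ Set.Ico (0 : ℝ) 1, 0 ≤ f' x) : f 0 ≤ f s := by
  have hsub : Set.Icc 0 s ⊆ Set.Ico 0 1 := fun x hx => ⟨hx.1, hx.2.trans_lt h1⟩
  have hmono : MonotoneOn f (Set.Icc 0 s) := by
    refine monotoneOn_of_deriv_nonneg (convex_Icc 0 s) ?_ ?_ ?_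
    · exact fun x hx => (hd x (hsub hx)).continuousAt.continuousWithinAt
    · exact fun x hx => (hd x (hsub (interior_subset hx))).differentiableAt.differentiableWithinAt
    · intro x hx
      rw [(hd x (hsub (interior_subset hx))).deriv]
      exact hn x (hsub (interior_subset hx))
  exact hmono (Set.left_mem_Icc.2 h0) (Set.right_mem_Icc.2 h0) h0

theorem ath_lb3 {s : ℝ} (h0 : 0 ≤ s) (h1 : s < 1) : s + s ^ 3 / 3 ≤ ath s := by
  have h := F1_mono (f := fun x => ath x - x - x ^ 3 / 3)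
    (f' := fun x => 1 / (1 - x ^ 2) - 1 - x ^ 2) h0 h1 (fun x hx => ?_) (fun x hx => ?_)
  · simp only [quad_ath_zero] at h
    norm_num at h
    linarith
  · have hx' : x ∈ Set.Ioo (-1 : ℝ) 1 := ⟨by linarith [hx.1], hx.2⟩
    have h2 := ((hasDerivAt_ath hx').sub (hasDerivAt_id' x)).sub
      ((hasDerivAt_pow 3 x).div_const 3)
    refine h2.congr_deriv ?_
    show _ = 1 / (1 - x ^ 2) - 1 - x ^ 2
    push_cast
    ring
  · have hp : 0 < 1 - x ^ 2 := by nlinarith [hx.1, hx.2]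
    have : 1 / (1 - x ^ 2) - 1 - x ^ 2 = x ^ 4 / (1 - x ^ 2) := by
      field_simp
      ring
    simp only [this]
    positivity

theorem ath_ub5 {s : ℝ} (h0 : 0 ≤ s) (h1 : s < 1) :
    ath s ≤ s + s ^ 3 / 3 + s ^ 5 / (5 * (1 - s ^ 2)) := by
  have h := F1_mono (f := fun x => x + x ^ 3 / 3 + x ^ 5 / (5 * (1 - x ^ 2)) - ath x)
    (f' := fun x => 2 * x ^ 6 / (5 * (1 - x ^ 2) ^ 2)) h0 h1 (fun x hx => ?_) (fun x hx => ?_)
  · simp only [quad_ath_zero] at h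
    norm_num at h
    linarith
  · have hx' : x ∈ Set.Ioo (-1 : ℝ) 1 := ⟨by linarith [hx.1], hx.2⟩
    have hp : 0 < 1 - x ^ 2 := by nlinarith [hx.1, hx.2]
    have h4 : HasDerivAt (fun t : ℝ => 5 * (1 - t ^ 2)) (5 * -(2 * x)) x := by
      have := ((hasDerivAt_pow 2 x).const_sub 1).const_mul 5
      simpa using this
    have h5 := (hasDerivAt_pow 5 x).div h4 (by positivity)
    have h2 := (((hasDerivAt_id' x).add ((hasDerivAt_pow 3 x).div_const 3)).add h5).sub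
      (hasDerivAt_ath hx')
    refine h2.congr_deriv ?_
    show _ = 2 * x ^ 6 / (5 * (1 - x ^ 2) ^ 2)
    push_cast
    field_simp
    ring
  · have hp : 0 < 1 - x ^ 2 := by nlinarith [hx.1, hx.2]
    have := hx.1
    positivity

theorem hasDerivAt_rr' {s : ℝ} (hs : s ∈ Set.Ioo (0 : ℝ) 1) : HasDerivAt rr (rr' s) s := by
  have h := rline_hasDerivAt_rr hs
  have h1 : 0 < 1 - s ^ 2 := by nlinarith [hs.1, hs.2]
  have h2 : 0 < ath s := ath_pos hs.1 hs.2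
  refine h.congr_deriv ?_
  unfold rr'
  field_simp
  ring

theorem F1_ub {s : ℝ} (h0 : 0 ≤ s) (h1 : s ≤ 8 / 25) :
    ath s ≤ s + s ^ 3 / 3 + 223 / 1000 * s ^ 5 := by
  have h := ath_ub5 h0 (by linarith : s < 1)
  have hp : s ^ 2 ≤ 64 / 625 := by nlinarith
  have hp1 : 0 < 5 * (1 - s ^ 2) := by nlinarith
  have h5 : 0 ≤ s ^ 5 := by positivity
  have : s ^ 5 / (5 * (1 - s ^ 2)) ≤ 223 / 1000 * s ^ 5 := by
    rw [div_le_iff₀ hp1]
    nlinarith [mul_nonneg h5 (sub_nonneg.mpr hp)]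
  linarith

/-- `rr' ≤ (8/5) artanh` on `(0, 8/25]` -/
theorem F1 {s : ℝ} (h0 : 0 < s) (h1 : s ≤ 8 / 25) : rr' s ≤ 8 / 5 * ath s := by
  have hs1 : s < 1 := by linarith
  have hz := ath_pos h0 hs1
  have hl := ath_lb3 h0.le hs1
  have hu := F1_ub h0.le h1
  have hp : s ^ 2 ≤ 64 / 625 := by nlinarith
  have hp0 : 0 ≤ s ^ 2 := sq_nonneg s
  have hp1 : 0 < 1 - s ^ 2 := by nlinarith
  unfold rr'
  rw [div_le_iff₀ (by positivity)]
  have e1 : (1 + s ^ 2) * ath s - s ≤ s ^ 3 * (4 / 3 + s ^ 2 / 3 + 223 / 1000 * (1 + s ^ 2) * s ^ 2) := by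
    have : (1 + s ^ 2) * ath s ≤ (1 + s ^ 2) * (s + s ^ 3 / 3 + 223 / 1000 * s ^ 5) :=
      mul_le_mul_of_nonneg_left hu (by positivity)
    nlinarith
  have e2 : s ^ 3 * (1 + s ^ 2) ≤ ath s ^ 3 := by
    have h3 : s ^ 3 * (1 + s ^ 2) ≤ (s + s ^ 3 / 3) ^ 3 := by
      have : (s + s ^ 3 / 3) ^ 3 = s ^ 3 * (1 + s ^ 2) + s ^ 3 * (s ^ 4 / 3 + s ^ 6 / 27) := by ring
      rw [this]
      have : 0 ≤ s ^ 3 * (s ^ 4 / 3 + s ^ 6 / 27) := by positivity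
      linarith
    exact h3.trans (pow_le_pow_left₀ (by positivity) hl 3)
  have e3 : 4 / 3 + s ^ 2 / 3 + 223 / 1000 * (1 + s ^ 2) * s ^ 2 ≤
      8 / 5 * (1 - s ^ 2) ^ 2 * (1 + s ^ 2) := by
    nlinarith [mul_nonneg hp0 (sub_nonneg.mpr hp), mul_nonneg (mul_nonneg hp0 hp0) (sub_nonneg.mpr hp), mul_nonneg hp0 hp0, mul_nonneg (mul_nonneg hp0 hp0) hp0]
  have hs3 : 0 ≤ s ^ 3 := by positivity
  calc (1 + s ^ 2) * ath s - s ≤ s ^ 3 * (4 / 3 + s ^ 2 / 3 + 223 / 1000 * (1 + s ^ 2) * s ^ 2) := e1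
    _ ≤ s ^ 3 * (8 / 5 * (1 - s ^ 2) ^ 2 * (1 + s ^ 2)) := mul_le_mul_of_nonneg_left e3 hs3
    _ = 8 / 5 * (1 - s ^ 2) ^ 2 * (s ^ 3 * (1 + s ^ 2)) := by ring
    _ ≤ 8 / 5 * (1 - s ^ 2) ^ 2 * ath s ^ 3 := mul_le_mul_of_nonneg_left e2 (by positivity)
    _ = 8 / 5 * ath s * ((1 - s ^ 2) ^ 2 * ath s ^ 2) := by ring
end P322
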