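import Vale.Agent.P322.Gen
namespace P322
/-- `Φ(s) = log 2 - h(s)` -/
noncomputable def Ph (s : ℝ) : ℝ := Real.log 2 - hh s

/-- derivative of `rr` -/
noncomputable def rr' (s : ℝ) : ℝ := ((1 + s ^ 2) * ath s - s) / ((1 - s ^ 2) ^ 2 * ath s ^ 2)

/-- `R(D)` (as function of `D = log 2 - x`) continued linearly beyond `D = Φ(8/25)`. -/
noncomputable def Rt (D : ℝ) : ℝ :=
  if D < Ph (8 / 25) then RR (Real.log 2 - D) else Rs (8 / 25) + rr (8 / 25) * (D - Ph (8 / 25))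

/-- comparison function for the ODE -/
noncomputable def Ct (r : ℝ) : ℝ := 1 / ath r - 11 / 10 * (1 / r - 1) - 9 / 10 * (1 - r)

theorem hasDerivAt_Ph {u : ℝ} (h : u ∈ Set.Ioo (-1 : ℝ) 1) : HasDerivAt Ph (ath u) u := by
  have h1 := (hasDerivAt_hh h).const_sub (Real.log 2)
  rw [neg_neg] at h1
  exact h1

theorem Ph_zero : Ph 0 = 0 := by unfold Ph; rw [hh_zero]; ring

theorem Ph_strictMono : StrictMonoOn Ph (Set.Icc 0 1) := by
  intro a ha b hb hab
  have := hh_strictAntiOn ha hb hab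
  unfold Ph; linarith

theorem Ph_pos {s : ℝ} (h0 : 0 < s) (h1 : s ≤ 1) : 0 < Ph s := by
  have := Ph_strictMono ⟨le_rfl, zero_le_one⟩ ⟨h0.le, h1⟩ h0
  rwa [Ph_zero] at this
end P322
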