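import Vale.Agent.P322.Full.FDefs
namespace P322

theorem NLine_min {F F' : ℝ → ℝ} {x y : ℝ} (hx : x ∈ Set.Ioo (0 : ℝ) 1) (hy : y ∈ Set.Ioo (0 : ℝ) 1)
    (hd : ∀ u ∈ Set.Ioo (0 : ℝ) 1, HasDerivAt F (F' u) u)
    (h1 : ∀ u ∈ Set.Ioo (0 : ℝ) 1, u ≤ x → F' u ≤ 0)
    (h2 : ∀ u ∈ Set.Ioo (0 : ℝ) 1, x ≤ u → 0 ≤ F' u) : F x ≤ F y := by
  rcases le_total x y with h | h
  · have hmono : MonotoneOn F (Set.Ico x 1) := by
      apply monotoneOn_of_deriv_nonneg (convex_Ico x 1)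
      · exact fun u hu => (hd u ⟨lt_of_lt_of_le hx.1 hu.1, hu.2⟩).continuousAt.continuousWithinAt
      · intro u hu
        rw [interior_Ico] at hu
        exact (hd u ⟨hx.1.trans hu.1, hu.2⟩).differentiableAt.differentiableWithinAt
      · intro u hu
        rw [interior_Ico] at hu
        rw [(hd u ⟨hx.1.trans hu.1, hu.2⟩).deriv]
        exact h2 u ⟨hx.1.trans hu.1, hu.2⟩ hu.1.le
    exact hmono ⟨le_rfl, hx.2⟩ ⟨h, hy.2⟩ h
  · have hanti : AntitoneOn F (Set.Ioc 0 x) := by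
      apply antitoneOn_of_deriv_nonpos (convex_Ioc 0 x)
      · exact fun u hu => (hd u ⟨hu.1, lt_of_le_of_lt hu.2 hx.2⟩).continuousAt.continuousWithinAt
      · intro u hu
        rw [interior_Ioc] at hu
        exact (hd u ⟨hu.1, hu.2.trans hx.2⟩).differentiableAt.differentiableWithinAt
      · intro u hu
        rw [interior_Ioc] at hu
        rw [(hd u ⟨hu.1, hu.2.trans hx.2⟩).deriv]
        exact h1 u ⟨hu.1, hu.2.trans hx.2⟩ hu.2.le
    exact hanti ⟨hy.1, h⟩ ⟨hx.1, le_rfl⟩ h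

theorem NLine_ath_zero : ath 0 = 0 := by unfold ath; simp

theorem NLine_mem {u : ℝ} (h : u ∈ Set.Ioo (0 : ℝ) 1) : u ∈ Set.Ioo (-1 : ℝ) 1 :=
  ⟨by linarith [h.1], h.2⟩

/-- `2y³/(1-y²)² ≥ 3 (y/(1-y²) - artanh y)` -/
theorem NLine_Q {y : ℝ} (h0 : 0 ≤ y) (h1 : y < 1) :
    0 ≤ 2 * y ^ 3 / (1 - y ^ 2) ^ 2 - 3 * (y / (1 - y ^ 2) - ath y) := by
  have hd : ∀ u ∈ Set.Ico (0 : ℝ) 1, HasDerivAt
      (fun y => 2 * y ^ 3 / (1 - y ^ 2) ^ 2 - 3 * (y / (1 - y ^ 2) - ath y))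
      (8 * u ^ 4 / (1 - u ^ 2) ^ 3) u := by
    intro u hu
    have hu' : u ∈ Set.Ioo (-1 : ℝ) 1 := ⟨by linarith [hu.1], hu.2⟩
    have hq : 0 < 1 - u ^ 2 := by nlinarith [hu.1, hu.2]
    have hsq : HasDerivAt (fun y : ℝ => 1 - y ^ 2) (-(2 * u)) u := by
      have := ((hasDerivAt_id u).pow 2).const_sub (1 : ℝ)
      refine this.congr_deriv ?_
      simp
    have hsq2 : HasDerivAt (fun y : ℝ => (1 - y ^ 2) ^ 2) (2 * (1 - u ^ 2) * (-(2 * u))) u := by
      have := hsq.pow 2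
      refine this.congr_deriv ?_
      simp
    have hc : HasDerivAt (fun y : ℝ => 2 * y ^ 3) (6 * u ^ 2) u := by
      have := ((hasDerivAt_id u).pow 3).const_mul (2 : ℝ)
      refine this.congr_deriv ?_
      simp; ring
    have h3 := (hc.div hsq2 (by positivity)).sub
      ((((hasDerivAt_id u).div hsq hq.ne').sub (hasDerivAt_ath hu')).const_mul (3 : ℝ))
    refine h3.congr_deriv ?_
    simp only [id]
    field_simp
    ring
  have hmono : MonotoneOn
      (fun y => 2 * y ^ 3 / (1 - y ^ 2) ^ 2 - 3 * (y / (1 - y ^ 2) - ath y)) (Set.Ico 0 1) := by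
    apply monotoneOn_of_deriv_nonneg (convex_Ico 0 1)
    · exact fun u hu => (hd u hu).continuousAt.continuousWithinAt
    · intro u hu
      rw [interior_Ico] at hu
      exact (hd u ⟨hu.1.le, hu.2⟩).differentiableAt.differentiableWithinAt
    · intro u hu
      rw [interior_Ico] at hu
      rw [(hd u ⟨hu.1.le, hu.2⟩).deriv]
      have hq : 0 < 1 - u ^ 2 := by nlinarith [hu.1, hu.2]
      have := hu.1
      positivity
  have := hmono ⟨le_rfl, zero_lt_one⟩ ⟨h0, h1⟩ h0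
  simpa [NLine_ath_zero] using this

theorem NLine_n_mono {x y : ℝ} (h0 : 0 < x) (hxy : x ≤ y) (h1 : y < 1) :
    (1 / (1 - x ^ 2) - 3 * ath x / x) / 2 ≤ (1 / (1 - y ^ 2) - 3 * ath y / y) / 2 := by
  have hd : ∀ u ∈ Set.Ioo (0 : ℝ) 1, HasDerivAt
      (fun y => (1 / (1 - y ^ 2) - 3 * ath y / y) / 2)
      ((2 * u ^ 3 / (1 - u ^ 2) ^ 2 - 3 * (u / (1 - u ^ 2) - ath u)) / (2 * u ^ 2)) u := by
    intro u hu
    have hu' := NLine_mem hu
    have hu0 := hu.1
    have hq : 0 < 1 - u ^ 2 := by nlinarith [hu.1, hu.2]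
    have hsq : HasDerivAt (fun y : ℝ => 1 - y ^ 2) (-(2 * u)) u := by
      have := ((hasDerivAt_id u).pow 2).const_sub (1 : ℝ)
      refine this.congr_deriv ?_
      simp
    have h3 := (((hasDerivAt_const u (1 : ℝ)).div hsq hq.ne').sub
      (((hasDerivAt_ath hu').const_mul (3 : ℝ)).div (hasDerivAt_id u) hu0.ne')).div_const 2
    refine h3.congr_deriv ?_
    simp only [id]
    field_simp
    ring
  have hmono : MonotoneOn (fun y => (1 / (1 - y ^ 2) - 3 * ath y / y) / 2) (Set.Ioo 0 1) := by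
    apply monotoneOn_of_deriv_nonneg (convex_Ioo 0 1)
    · exact fun u hu => (hd u hu).continuousAt.continuousWithinAt
    · intro u hu
      rw [interior_Ioo] at hu
      exact (hd u hu).differentiableAt.differentiableWithinAt
    · intro u hu
      rw [interior_Ioo] at hu
      rw [(hd u hu).deriv]
      have := NLine_Q hu.1.le hu.2
      have := hu.1
      positivity
  exact hmono ⟨h0, lt_of_le_of_lt hxy h1⟩ ⟨lt_of_lt_of_le h0 hxy, h1⟩ hxy

/-- `p ↦ √p artanh √p - 4 Φ(√p)` is convex -/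
theorem N_line {x y : ℝ} (hx : x ∈ Set.Ioo (0 : ℝ) 1) (hy : y ∈ Set.Ioo (0 : ℝ) 1) :
    (x * ath x - 4 * Ph x) + (1 / (1 - x ^ 2) - 3 * ath x / x) / 2 * (y ^ 2 - x ^ 2)
      ≤ y * ath y - 4 * Ph y := by
  obtain ⟨c, hc⟩ : ∃ c, c = (1 / (1 - x ^ 2) - 3 * ath x / x) / 2 := ⟨_, rfl⟩
  rw [← hc]
  have key := NLine_min (F := fun y => y * ath y - 4 * Ph y - c * (y ^ 2 - x ^ 2))
    (F' := fun u => 2 * u * ((1 / (1 - u ^ 2) - 3 * ath u / u) / 2 - c)) hx hy ?_ ?_ ?_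
  · simp only [sub_self, mul_zero, sub_zero] at key
    linarith
  · intro u hu
    have hu' := NLine_mem hu
    have hu0 := hu.1
    have hq : 0 < 1 - u ^ 2 := by nlinarith [hu.1, hu.2]
    have h2 : HasDerivAt (fun y : ℝ => c * (y ^ 2 - x ^ 2)) (c * (2 * u)) u := by
      have := (((hasDerivAt_id u).pow 2).sub_const (x ^ 2)).const_mul c
      refine this.congr_deriv ?_
      simp
    have h3 := (((hasDerivAt_id u).mul (hasDerivAt_ath hu')).sub
      ((hasDerivAt_Ph hu').const_mul (4 : ℝ))).sub h2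
    refine h3.congr_deriv ?_
    simp only [id]
    field_simp
    ring
  · intro u hu hux
    have := NLine_n_mono hu.1 hux hx.2
    rw [← hc] at this
    have hu0 := hu.1
    exact mul_nonpos_of_nonneg_of_nonpos (by linarith) (by linarith)
  · intro u hu hux
    have := NLine_n_mono hx.1 hux hu.2
    rw [← hc] at this
    have hu0 := hu.1
    exact mul_nonneg (by linarith) (by linarith)

/-- `p ↦ Φ(√p)` is convex -/
theorem Ph_line {x y : ℝ} (hx : x ∈ Set.Ioo (0 : ℝ) 1) (hy : y ∈ Set.Ioo (0 : ℝ) 1) :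
    Ph x + ath x / (2 * x) * (y ^ 2 - x ^ 2) ≤ Ph y := by
  obtain ⟨c, hc⟩ : ∃ c, c = ath x / x := ⟨_, rfl⟩
  have hc2 : ath x / (2 * x) = c / 2 := by
    rw [hc]; have := hx.1; field_simp
  rw [hc2]
  have key := NLine_min (F := fun y => Ph y - c / 2 * (y ^ 2 - x ^ 2))
    (F' := fun u => u * (ath u / u - c)) hx hy ?_ ?_ ?_
  · simp only [sub_self, mul_zero, sub_zero] at key
    linarith
  · intro u hu
    have hu' := NLine_mem hu
    have hu0 := hu.1
    have h2 : HasDerivAt (fun y : ℝ => c / 2 * (y ^ 2 - x ^ 2)) (c / 2 * (2 * u)) u := by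
      have := (((hasDerivAt_id u).pow 2).sub_const (x ^ 2)).const_mul (c / 2)
      refine this.congr_deriv ?_
      simp
    have h3 := (hasDerivAt_Ph hu').sub h2
    refine h3.congr_deriv ?_
    field_simp
  · intro u hu hux
    have := quad_slope_mono hu.1 hux hx.2
    rw [← hc] at this
    exact mul_nonpos_of_nonneg_of_nonpos hu.1.le (by linarith)
  · intro u hu hux
    have := quad_slope_mono hx.1 hux hu.2
    rw [← hc] at this
    exact mul_nonneg hu.1.le (by linarith)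
end P322
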