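import Vale.Agent.P322.Full.Mix
import Vale.Agent.P322.Full.NLine
namespace P322
/-- reduction of the static quantities to `q = d²/(1-m²)`, `x = √q`. -/
theorem static_red {m d : ℝ} (hd : 0 < d) (hm : |m| + d < 1) :
    ∃ x ∈ Set.Ioo (0 : ℝ) 1, x ^ 2 = d ^ 2 / (1 - m ^ 2) ∧
      d ^ 2 / (1 - m ^ 2 + d ^ 2) = x ^ 2 / (1 + x ^ 2) ∧
      Ph x ≤ hh m - (hh (m + d) + hh (m - d)) / 2 ∧
      Rs x + 2 * (hh m - (hh (m + d) + hh (m - d)) / 2 - Ph x)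
        ≤ jj (m + d) (m - d) - 2 * (hh m - (hh (m + d) + hh (m - d)) / 2) := by
  have habs := abs_nonneg m
  have h1 := abs_le.1 (le_refl |m|)
  have hp : 0 < 1 + m := by linarith [h1.1]
  have hq : 0 < 1 - m := by linarith [h1.2]
  have hm2 : m ^ 2 = |m| ^ 2 := (sq_abs m).symm
  have hpos : 0 < 1 - m ^ 2 := by nlinarith
  have hlt : d ^ 2 < 1 - m ^ 2 := by
    rw [hm2]
    nlinarith
  set x := Real.sqrt (d ^ 2 / (1 - m ^ 2)) with hx
  have hx2 : x ^ 2 = d ^ 2 / (1 - m ^ 2) := Real.sq_sqrt (by positivity)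
  have hx0 : 0 < x := Real.sqrt_pos.2 (by positivity)
  have hx1 : x < 1 := by
    have hlt1 : d ^ 2 / (1 - m ^ 2) < 1 := (div_lt_one hpos).2 hlt
    rw [← hx2] at hlt1
    nlinarith
  have hxI : x ∈ Set.Ioo (0 : ℝ) 1 := ⟨hx0, hx1⟩
  have hyp : d / (1 + m) ∈ Set.Ioo (0 : ℝ) 1 := by
    refine ⟨by positivity, (div_lt_one hp).2 ?_⟩
    linarith [h1.1]
  have hyq : d / (1 - m) ∈ Set.Ioo (0 : ℝ) 1 := by
    refine ⟨by positivity, (div_lt_one hq).2 ?_⟩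
    linarith [h1.2]
  have hmean : (1 + m) / 2 * (d / (1 + m)) ^ 2 + (1 - m) / 2 * (d / (1 - m)) ^ 2 = x ^ 2 := by
    rw [hx2]
    have e : 1 - m ^ 2 = (1 + m) * (1 - m) := by ring
    rw [e]
    field_simp
    ring
  have hwp : 0 ≤ (1 + m) / 2 := by linarith
  have hwq : 0 ≤ (1 - m) / 2 := by linarith
  refine ⟨x, hxI, hx2, ?_, ?_, ?_⟩
  · rw [hx2]
    have hne : 1 - m ^ 2 ≠ 0 := hpos.ne'
    have hne2 : 1 - m ^ 2 + d ^ 2 ≠ 0 := by positivity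
    field_simp
  · rw [mix_hh hd hm]
    have a1 := mul_le_mul_of_nonneg_left (Ph_line hxI hyp) hwp
    have a2 := mul_le_mul_of_nonneg_left (Ph_line hxI hyq) hwq
    have e : (1 + m) / 2 * (Ph x + ath x / (2 * x) * ((d / (1 + m)) ^ 2 - x ^ 2)) +
        (1 - m) / 2 * (Ph x + ath x / (2 * x) * ((d / (1 - m)) ^ 2 - x ^ 2)) =
        Ph x + ath x / (2 * x) * (((1 + m) / 2 * (d / (1 + m)) ^ 2 +
          (1 - m) / 2 * (d / (1 - m)) ^ 2) - x ^ 2) := by ring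
    rw [hmean, sub_self, mul_zero, add_zero] at e
    linarith
  · rw [mix_hh hd hm, mix_jj hd hm]
    have a1 := mul_le_mul_of_nonneg_left (N_line hxI hyp) hwp
    have a2 := mul_le_mul_of_nonneg_left (N_line hxI hyq) hwq
    have e : (1 + m) / 2 * ((x * ath x - 4 * Ph x) +
          (1 / (1 - x ^ 2) - 3 * ath x / x) / 2 * ((d / (1 + m)) ^ 2 - x ^ 2)) +
        (1 - m) / 2 * ((x * ath x - 4 * Ph x) +
          (1 / (1 - x ^ 2) - 3 * ath x / x) / 2 * ((d / (1 - m)) ^ 2 - x ^ 2)) =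
        (x * ath x - 4 * Ph x) + (1 / (1 - x ^ 2) - 3 * ath x / x) / 2 *
          (((1 + m) / 2 * (d / (1 + m)) ^ 2 + (1 - m) / 2 * (d / (1 - m)) ^ 2) - x ^ 2) := by
      ring
    rw [hmean, sub_self, mul_zero, add_zero] at e
    have hRs : Rs x = x * ath x - 2 * Ph x := by unfold Rs Ph; ring
    rw [hRs]
    linarith
end P322
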