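import Vale.Agent.P322.Full.RtLem
import Vale.Agent.P322.Full.Static
namespace P322

theorem small_step_pos (n : ℕ) (v w : (Fin n → Bool) → ℝ) (hv : InI v) (hw : InI w)
    (hd : av w < av v) :
      2 * (hh ((av v + av w) / 2) - (av (fun x => hh (v x)) + av (fun x => hh (w x))) / 2)
        + Rt (hh ((av v + av w) / 2) - (av (fun x => hh (v x)) + av (fun x => hh (w x))) / 2)
        ≤ ((2 * (hh (av v) - av (fun x => hh (v x))) + Rt (hh (av v) - av (fun x => hh (v x))))
          + (2 * (hh (av w) - av (fun x => hh (w x))) + Rt (hh (av w) - av (fun x => hh (w x))))) / 2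
          + av (fun x => jj (v x) (w x)) := by
  have hmv := av_mem hv
  have hmw := av_mem hw
  have hJv := jensen_hh v hv
  have hJw := jensen_hh w hw
  have hjj := av_bregman v w hv hw hmv hmw
  generalize av (fun x => jj (v x) (w x)) = E at *
  generalize av (fun x => hh (v x)) = H1 at *
  generalize av (fun x => hh (w x)) = H2 at *
  generalize av v = m1 at *
  generalize av w = m2 at *
  have e1 : (m1 + m2) / 2 + (m1 - m2) / 2 = m1 := by ring
  have e2 : (m1 + m2) / 2 - (m1 - m2) / 2 = m2 := by ring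
  obtain ⟨x, hx, -, hk, hP, hR⟩ := static_red (m := (m1 + m2) / 2) (d := (m1 - m2) / 2)
    (by linarith)
    (by rcases abs_cases ((m1 + m2) / 2) with h | h <;> rw [h.1] <;> linarith [hmv.2, hmw.1])
  rw [e1, e2] at hP hR
  have hden : 0 < 1 - m1 * m2 := by nlinarith [hmv.1, hmv.2, hmw.1, hmw.2]
  have e4 : 1 - ((m1 + m2) / 2) ^ 2 + ((m1 - m2) / 2) ^ 2 = 1 - m1 * m2 := by ring
  rw [e4] at hk
  set t : ℝ := ((hh m1 - H1) + (hh m2 - H2)) / 2 with ht
  set Dl : ℝ := hh ((m1 + m2) / 2) - (hh m1 + hh m2) / 2 with hDl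
  have ht0 : 0 ≤ t := by rw [ht]; linarith
  have e5 : (m1 - m2) ^ 2 / (8 * (1 - m1 * m2)) * (hh m1 - H1 + (hh m2 - H2))
      = ((m1 - m2) / 2) ^ 2 / (1 - m1 * m2) * t := by
    rw [ht]
    field_simp
    ring
  rw [e5, hk] at hjj
  have hD : hh ((m1 + m2) / 2) - (H1 + H2) / 2 = Dl + t := by rw [hDl, ht]; ring
  have h1 : Rt (Dl + t) ≤ Rt (Ph x + t) + rr (8 / 25) * (Dl - Ph x) := by
    have h := Rt_lip (Ph x + t) (δ := Dl - Ph x) (by linarith)
    have e : Ph x + t + (Dl - Ph x) = Dl + t := by ring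
    rwa [e] at h
  have h2 := Rt_cross hx ht0
  have h3 : rr (8 / 25) * (Dl - Ph x) ≤ 2 * (Dl - Ph x) :=
    mul_le_mul_of_nonneg_right rr_825_le (by linarith)
  have h4 := Rt_conv (hh m1 - H1) (hh m2 - H2)
  rw [← ht] at h4
  rw [hD]
  have h5 : (hh m1 - H1) + (hh m2 - H2) = 2 * t := by rw [ht]; ring
  linarith

theorem small_step (n : ℕ) (v w : (Fin n → Bool) → ℝ) (hv : InI v) (hw : InI w) :
      2 * (hh ((av v + av w) / 2) - (av (fun x => hh (v x)) + av (fun x => hh (w x))) / 2)
        + Rt (hh ((av v + av w) / 2) - (av (fun x => hh (v x)) + av (fun x => hh (w x))) / 2)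
        ≤ ((2 * (hh (av v) - av (fun x => hh (v x))) + Rt (hh (av v) - av (fun x => hh (v x))))
          + (2 * (hh (av w) - av (fun x => hh (w x))) + Rt (hh (av w) - av (fun x => hh (w x))))) / 2
          + av (fun x => jj (v x) (w x)) := by
  rcases lt_trichotomy (av w) (av v) with h | h | h
  · exact small_step_pos n v w hv hw h
  · have hjj := jensen_jj v w hv hw
    have hz : jj (av v) (av w) = 0 := by rw [h]; unfold jj; ring
    rw [hz] at hjj
    rw [h]
    have e : (av v + av v) / 2 = av v := by ring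
    rw [e]
    have h4 := Rt_conv (hh (av v) - av (fun x => hh (v x))) (hh (av v) - av (fun x => hh (w x)))
    have e2 : (hh (av v) - av (fun x => hh (v x)) + (hh (av v) - av (fun x => hh (w x)))) / 2
        = hh (av v) - (av (fun x => hh (v x)) + av (fun x => hh (w x))) / 2 := by ring
    rw [e2] at h4
    linarith
  · have h' := small_step_pos n w v hw hv h
    have e1 : av (fun x => jj (w x) (v x)) = av (fun x => jj (v x) (w x)) := by
      congr 1; funext x; exact jj_symm _ _
    rw [e1, add_comm (av w) (av v), add_comm (av (fun x => hh (w x))) (av (fun x => hh (v x)))] at h'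
    linarith

theorem small_star {n : ℕ} (u : (Fin n → Bool) → ℝ) (hu : InI u) :
    2 * (hh (av u) - av (fun x => hh (u x))) + Rt (hh (av u) - av (fun x => hh (u x))) ≤ II u :=
  induct (fun m H => 2 * (hh m - H) + Rt (hh m - H))
    (fun m _ => by
      show 2 * (hh m - hh m) + Rt (hh m - hh m) ≤ 0
      rw [sub_self, Rt_zero]; norm_num)
    (fun n v w hv hw => small_step n v w hv hw) n u hu

/-- exact tangent lines of `Ψ` near `D = 0`, for all `u` -/
theorem small_line {n : ℕ} (u : (Fin n → Bool) → ℝ) (hu : InI u) {s : ℝ} (h0 : 0 < s)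
    (h1 : s ≤ 8 / 25) :
    2 * (hh (av u) - av (fun x => hh (u x))) + Rs s
      + rr s * (hh (av u) - av (fun x => hh (u x)) - Ph s) ≤ II u := by
  have h2 := small_star u hu
  have h3 := Rt_line h0 h1 (hh (av u) - av (fun x => hh (u x)))
  linarith
end P322
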