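import Vale.Agent.P322.Full.FullOde
import Vale.Agent.P322.Full.SmallStep
import Vale.Agent.P322.GenAv
namespace P322
theorem Ph_neg (u : ℝ) : Ph (-u) = Ph u := by unfold Ph; rw [hh_neg]

theorem Ph_ge_sq {m : ℝ} (h0 : 0 ≤ m) (h1 : m < 1) : m ^ 2 / 2 ≤ Ph m := by
  have hd : ∀ x ∈ Set.Ioo (-1 : ℝ) 1, HasDerivAt (fun x => Ph x - x ^ 2 / 2) (ath x - x) x := by
    intro x hx
    have h2 := (hasDerivAt_Ph hx).sub ((hasDerivAt_pow 2 x).div_const 2)
    have e : ath x - ((2 : ℕ) : ℝ) * x ^ (2 - 1) / 2 = ath x - x := by norm_num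
    rw [e] at h2
    exact h2
  have hmono : MonotoneOn (fun x => Ph x - x ^ 2 / 2) (Set.Icc 0 m) := by
    refine monotoneOn_of_deriv_nonneg (convex_Icc 0 m) ?_ ?_ ?_
    · exact fun x hx => (hd x ⟨by linarith [hx.1], by linarith [hx.2]⟩).continuousAt.continuousWithinAt
    · intro x hx
      have hx' := interior_subset hx
      exact (hd x ⟨by linarith [hx'.1], by linarith [hx'.2]⟩).differentiableAt.differentiableWithinAt
    · intro x hx
      have hx' := interior_subset hx
      rw [(hd x ⟨by linarith [hx'.1], by linarith [hx'.2]⟩).deriv]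
      have := le_ath hx'.1 (lt_of_le_of_lt hx'.2 h1)
      linarith
  have h3 := hmono (Set.left_mem_Icc.2 h0) (Set.right_mem_Icc.2 h0) h0
  simp only [Ph_zero] at h3
  norm_num at h3
  linarith

theorem sq_le_two_Ph {m : ℝ} (hm : m ∈ Set.Ioo (-1 : ℝ) 1) : m ^ 2 ≤ 2 * Ph m := by
  rcases le_total 0 m with h | h
  · have := Ph_ge_sq h hm.2
    linarith
  · have := Ph_ge_sq (m := -m) (by linarith) (by linarith [hm.1])
    rw [Ph_neg] at this
    nlinarith

/-- entropy comparison for all non-constant functions -/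
theorem full_H {G : ℝ → ℝ} (hGp : ∀ m ∈ Set.Ioo (-1 : ℝ) 1, 0 < G m) (hS : StarAll G)
    (hGk : ∀ m ∈ Set.Ioo (-1 : ℝ) 1, 1 - G m ≤ m ^ 2)
    {n : ℕ} (f : (Fin n → Bool) → Bool) (ht : ∃ x, f x = true) (hf : ∃ x, f x = false)
    {ρ : ℝ} (h0 : 0 ≤ ρ) (h1 : ρ ≤ 1) :
    hh (av (sg f)) - av (fun y => hh (TT ρ (sg f) y)) ≤ Ph ρ := by
  have hmem : ∀ r : ℝ, 0 ≤ r → r < 1 → InI (TT r (sg f)) := fun r hr0 hr1 =>
    TT_mem f ht hf hr0 hr1
  set m := av (sg f) with hm
  have hmI : m ∈ Set.Ioo (-1 : ℝ) 1 := by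
    have := av_mem (hmem (1 / 2) (by norm_num) (by norm_num))
    rwa [av_TT] at this
  have hε : 0 ≤ Ph m := by
    have := sq_le_two_Ph hmI
    nlinarith [sq_nonneg m]
  have hinner : ∀ r ∈ Set.Ioo (0 : ℝ) 1,
      0 ≤ Ph r - (hh m - av (fun y => hh (TT r (sg f) y))) := by
    refine ode_full (fun r => Ph r - (hh m - av (fun y => hh (TT r (sg f) y))))
      (fun r => ath r - (0 - (-(II (TT r (sg f))) / r))) (Ph m) hε ?_ ?_ ?_ ?_
    · intro r hr
      exact (hasDerivAt_Ph ⟨by linarith [hr.1], hr.2⟩).sub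
        ((hasDerivAt_const r (hh m)).sub (hasDerivAt_H (sg f) hr.1 (hmem r hr.1.le hr.2)))
    · intro r hr
      have h3 : 0 < av (fun y => hh (TT r (sg f) y)) := av_hh_pos _ (hmem r hr.1.le hr.2)
      have h4 : hh m ≤ Real.log 2 := hh_le
      show -hh r ≤ Ph r - (hh m - av (fun y => hh (TT r (sg f) y)))
      unfold Ph
      linarith
    · intro r hr _
      have hI := hmem r hr.1.le hr.2
      have hs := hS n (TT r (sg f)) hI
      rw [av_TT, ← hm] at hs
      have hHp : 0 < av (fun y => hh (TT r (sg f) y)) := av_hh_pos _ hI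
      set H := av (fun y => hh (TT r (sg f) y)) with hH
      have hG := hGp m hmI
      have hl := RR_line (s := r) (x := H / G m) hr (div_pos hHp hG)
      have hl2 := mul_le_mul_of_nonneg_left hl hG.le
      have e1 : G m * (Rs r - rr r * (H / G m - hh r))
          = G m * (Rs r + rr r * hh r) - rr r * H := by
        field_simp
        ring
      rw [e1] at hl2
      have hE : 0 ≤ Rs r + rr r * hh r :=
        add_nonneg (Rs_nonneg hr) (mul_nonneg (rr_nonneg hr)
          (hh_pos ⟨by linarith [hr.1], hr.2⟩).le)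
      have hk : 0 ≤ G m - 1 + 2 * Ph m := by
        have := hGk m hmI
        have := sq_le_two_Ph hmI
        linarith
      have hEk := mul_nonneg hE hk
      have hRs : r * ath r = 2 * Ph r + Rs r := by unfold Rs Ph; ring
      have e2 : r * (ath r - (0 - (-(II (TT r (sg f))) / r))) = r * ath r - II (TT r (sg f)) := by
        have := hr.1.ne'
        field_simp
        ring
      show r * (ath r - (0 - (-(II (TT r (sg f))) / r)))
        ≤ (2 + rr r) * (Ph r - (hh m - H)) + Ph m * (2 * (Rs r + rr r * hh r) - rr r)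
      rw [e2, hRs]
      have e3 : hh m = Real.log 2 - Ph m := by unfold Ph; ring
      have e4 : hh r = Real.log 2 - Ph r := by unfold Ph; ring
      rw [e3] at hs ⊢
      rw [e4] at hl2 hEk ⊢
      nlinarith [hs, hl2, hEk]
    · intro r hr hr8
      have hI := hmem r hr.1.le hr.2
      have hs := small_line (TT r (sg f)) hI hr.1 hr8
      rw [av_TT, ← hm] at hs
      set H := av (fun y => hh (TT r (sg f) y)) with hH
      have hRs : r * ath r = 2 * Ph r + Rs r := by unfold Rs Ph; ring
      have e2 : r * (ath r - (0 - (-(II (TT r (sg f))) / r))) = r * ath r - II (TT r (sg f)) := by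
        have := hr.1.ne'
        field_simp
        ring
      show r * (ath r - (0 - (-(II (TT r (sg f))) / r)))
        ≤ (2 + rr r) * (Ph r - (hh m - H))
      rw [e2, hRs]
      nlinarith [hs]
  have hcont : Continuous (fun r => hh m - av (fun y => hh (TT r (sg f) y))) := by
    unfold av
    exact continuous_const.sub ((continuous_finsetSum _ fun y _ =>
      hh_continuous.comp (TT_continuous (sg f) y)).div_const _)
  have hcont2 : Continuous Ph := continuous_const.sub hh_continuous
  have hclosed : IsClosed {r : ℝ | hh m - av (fun y => hh (TT r (sg f) y)) ≤ Ph r} :=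
    isClosed_le hcont hcont2
  have hsub : closure (Set.Ioo (0 : ℝ) 1)
      ⊆ {r : ℝ | hh m - av (fun y => hh (TT r (sg f) y)) ≤ Ph r} :=
    closure_minimal (fun r hr => by
      have := hinner r hr
      show hh m - av (fun y => hh (TT r (sg f) y)) ≤ Ph r
      linarith) hclosed
  rw [closure_Ioo (by norm_num)] at hsub
  exact hsub ⟨h0, h1⟩

/-- the Courtade-Kumar inequality for all Boolean functions -/
theorem full_CK_of {G : ℝ → ℝ} (hGp : ∀ m ∈ Set.Ioo (-1 : ℝ) 1, 0 < G m) (hS : StarAll G)
    (hGk : ∀ m ∈ Set.Ioo (-1 : ℝ) 1, 1 - G m ≤ m ^ 2)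
    {n : ℕ} (f : (Fin n → Bool) → Bool) (ε : ℝ) (h0 : 0 ≤ ε) (h1 : ε ≤ 1 / 2) :
    mutualInfo (joint f ε) ≤ 1 - h2 ε := by
  have hlog : 0 < Real.log 2 := Real.log_pos (by norm_num)
  have hle : hh (av (sg f)) - av (fun y => hh (TT (1 - 2 * ε) (sg f) y)) ≤ Ph (1 - 2 * ε) := by
    by_cases ht : ∃ x, f x = true
    · by_cases hf : ∃ x, f x = false
      · exact full_H hGp hS hGk f ht hf (by linarith) (by linarith)
      · push Not at hf
        have hf' : ∀ x, f x = true := fun x => by simpa using hf x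
        have e1 : sg f = fun _ => (1 : ℝ) := by
          funext x; unfold sg; rw [if_pos (hf' x)]
        have e2 : av (sg f) = 1 := by
          rw [e1]; unfold av; simp
        have hn : 0 ≤ av (fun y => hh (TT (1 - 2 * ε) (sg f) y)) := by
          have e3 : ∀ y, TT (1 - 2 * ε) (sg f) y = 1 := by
            intro y
            rw [e1]; unfold TT
            simp only [mul_one]
            exact kernel_sum_left _ y
          simp only [e3, hh_one]
          unfold av; simp
        rw [e2, hh_one]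
        have : 0 ≤ Ph (1 - 2 * ε) := by unfold Ph; linarith [hh_le (u := 1 - 2 * ε)]
        linarith
    · push Not at ht
      have ht' : ∀ x, f x = false := fun x => by simpa using ht x
      have e1 : sg f = fun _ => (-1 : ℝ) := by
        funext x; unfold sg; rw [if_neg (by rw [ht' x]; simp)]
      have e2 : av (sg f) = -1 := by
        rw [e1]; unfold av; simp
      have hn : 0 ≤ av (fun y => hh (TT (1 - 2 * ε) (sg f) y)) := by
        have e3 : ∀ y, TT (1 - 2 * ε) (sg f) y = -1 := by
          intro y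
          rw [e1]; unfold TT
          rw [← Finset.sum_mul, kernel_sum_left]
          ring
        simp only [e3, hh_neg, hh_one]
        unfold av; simp
      rw [e2, hh_neg, hh_one]
      have : 0 ≤ Ph (1 - 2 * ε) := by unfold Ph; linarith [hh_le (u := 1 - 2 * ε)]
      linarith
  rw [mi_formula f ε h0 (by linarith), h2_eq]
  rw [show (1 : ℝ) - hh (1 - 2 * ε) / Real.log 2 = (Real.log 2 - hh (1 - 2 * ε)) / Real.log 2 by
    field_simp]
  exact div_le_div_of_nonneg_right hle hlog.le

/-- the full Courtade-Kumar inequality from the one-step inequality for `G = 1 - m²` -/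
theorem full_CK_of_CAv (hC : CAv Gq) {n : ℕ} (f : (Fin n → Bool) → Bool) (ε : ℝ) (h0 : 0 ≤ ε)
    (h1 : ε ≤ 1 / 2) : mutualInfo (joint f ε) ≤ 1 - h2 ε :=
  full_CK_of (G := Gq) (fun _ hm => Gq_pos hm)
    (StarAll_of Gq_neg (fun _ hm => Gq_pos hm) (fun _ hm => Gq_base hm) hC)
    (fun m _ => by unfold Gq; linarith) f ε h0 h1
end P322
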