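import Vale.Agent.P322.Full.CtDeriv
namespace P322

theorem fode_hasDerivAt_den {r : ℝ} (hr : r ∈ Set.Ioo (0 : ℝ) 1) :
    HasDerivAt (fun x => x * ath x) (ath r + r / (1 - r ^ 2)) r := by
  have h3 : HasDerivAt ath (1 / (1 - r ^ 2)) r := hasDerivAt_ath ⟨by linarith [hr.1], hr.2⟩
  have h := (hasDerivAt_id' r).mul h3
  refine h.congr_deriv ?_
  ring

/-- `r (r ath r)' = (2 + rr r) r ath r` -/
theorem fode_den {r : ℝ} (hr : r ∈ Set.Ioo (0 : ℝ) 1) :
    r * (ath r + r / (1 - r ^ 2)) = (2 + rr r) * (r * ath r) := by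
  have h := rr_mul_ath hr
  have : r / (1 - r ^ 2) = rr r * ath r + ath r := by linarith
  rw [this]
  ring

theorem fode_hasDerivAt_c {V V' : ℝ → ℝ} {r : ℝ} (hr : r ∈ Set.Ioo (0 : ℝ) 1)
    (hd : HasDerivAt V (V' r) r) :
    HasDerivAt (fun x => V x / (x * ath x))
      ((r * V' r - (2 + rr r) * V r) / (r ^ 2 * ath r)) r := by
  have h2 : 0 < ath r := ath_pos hr.1 hr.2
  have hr0 : 0 < r := hr.1
  have h := hd.div (fode_hasDerivAt_den hr) (mul_pos hr0 h2).ne'
  refine h.congr_deriv ?_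
  have e := fode_den hr
  rw [div_eq_div_iff (by positivity) (by positivity)]
  have e2 : ath r + r / (1 - r ^ 2) = (2 + rr r) * ath r := by
    have := mul_left_cancel₀ hr0.ne' (a := r) (b := ath r + r / (1 - r ^ 2))
      (c := (2 + rr r) * ath r) (by rw [e]; ring)
    exact this
  rw [e2]
  ring

/-- `ath r → ∞` as `r → 1` -/
theorem fode_tendsto_ath : Filter.Tendsto ath (nhdsWithin 1 (Set.Iio 1)) Filter.atTop := by
  have h1 : Filter.Tendsto (fun u : ℝ => (1 + u) / (1 - u)) (nhdsWithin 1 (Set.Iio 1))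
      Filter.atTop := by
    have ha : Filter.Tendsto (fun u : ℝ => 1 + u) (nhdsWithin 1 (Set.Iio 1)) (nhds 2) := by
      have : Filter.Tendsto (fun u : ℝ => 1 + u) (nhds 1) (nhds (1 + 1)) :=
        (continuous_const.add continuous_id).tendsto 1
      norm_num at this
      exact this.mono_left nhdsWithin_le_nhds
    have hb : Filter.Tendsto (fun u : ℝ => (1 - u)⁻¹) (nhdsWithin 1 (Set.Iio 1))
        Filter.atTop := by
      refine Filter.Tendsto.comp tendsto_inv_nhdsGT_zero ?_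
      refine tendsto_nhdsWithin_iff.2 ⟨?_, ?_⟩
      · have : Filter.Tendsto (fun u : ℝ => 1 - u) (nhds 1) (nhds (1 - 1)) :=
          (continuous_const.sub continuous_id).tendsto 1
        norm_num at this
        exact this.mono_left nhdsWithin_le_nhds
      · filter_upwards [self_mem_nhdsWithin] with u hu
        have hu' : u < 1 := hu
        have : 0 < 1 - u := by linarith
        exact this
    have := Filter.Tendsto.pos_mul_atTop (by norm_num : (0 : ℝ) < 2) ha hb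
    simpa [div_eq_mul_inv] using this
  have h2 := Real.tendsto_log_atTop.comp h1
  exact (h2.atTop_div_const (by norm_num : (0 : ℝ) < 2))

theorem ode_full (V V' : ℝ → ℝ) (ε : ℝ) (hε : 0 ≤ ε)
    (hd : ∀ ρ ∈ Set.Ioo (0 : ℝ) 1, HasDerivAt V (V' ρ) ρ)
    (hlow : ∀ ρ ∈ Set.Ioo (0 : ℝ) 1, - hh ρ ≤ V ρ)
    (h1 : ∀ ρ ∈ Set.Ioo (0 : ℝ) 1, 8 / 25 ≤ ρ →
      ρ * V' ρ ≤ (2 + rr ρ) * V ρ + ε * (2 * (Rs ρ + rr ρ * hh ρ) - rr ρ))
    (h2 : ∀ ρ ∈ Set.Ioo (0 : ℝ) 1, ρ ≤ 8 / 25 → ρ * V' ρ ≤ (2 + rr ρ) * V ρ) :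
    ∀ ρ ∈ Set.Ioo (0 : ℝ) 1, 0 ≤ V ρ := by
  -- the quotient
  have hden : ∀ x ∈ Set.Ioo (0 : ℝ) 1, 0 < x * ath x := fun x hx =>
    mul_pos hx.1 (ath_pos hx.1 hx.2)
  have hsub : Set.Ico (8 / 25 : ℝ) 1 ⊆ Set.Ioo 0 1 := fun x hx => ⟨by linarith [hx.1], hx.2⟩
  -- antitone on [8/25, 1)
  have hanti : AntitoneOn (fun x => V x / (x * ath x) - ε * Ct x) (Set.Ico (8 / 25 : ℝ) 1) := by
    have hD : ∀ x ∈ Set.Ico (8 / 25 : ℝ) 1, HasDerivAt (fun x => V x / (x * ath x) - ε * Ct x)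
        ((x * V' x - (2 + rr x) * V x) / (x ^ 2 * ath x)
          - ε * (-(1 / ((1 - x ^ 2) * ath x ^ 2)) + 11 / 10 / x ^ 2 + 9 / 10)) x := by
      intro x hx
      exact (fode_hasDerivAt_c (hsub hx) (hd x (hsub hx))).sub
        ((hasDerivAt_Ct (hsub hx)).const_mul ε)
    refine antitoneOn_of_deriv_nonpos (convex_Ico _ _) ?_ ?_ ?_
    · exact fun x hx => (hD x hx).continuousAt.continuousWithinAt
    · exact fun x hx => (hD x (interior_subset hx)).differentiableAt.differentiableWithinAt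
    · intro x hx
      have hx' := interior_subset hx
      rw [(hD x hx').deriv]
      have hx0 := hsub hx'
      have hp : 0 < x ^ 2 * ath x := mul_pos (pow_pos hx0.1 2) (ath_pos hx0.1 hx0.2)
      have a1 := h1 x hx0 hx'.1
      have a2 : (x * V' x - (2 + rr x) * V x) / (x ^ 2 * ath x)
          ≤ ε * ((2 * (Rs x + rr x * hh x) - rr x) / (x ^ 2 * ath x)) := by
        rw [← mul_div_assoc]
        exact div_le_div_of_nonneg_right (by linarith) hp.le
      have a3 := mul_le_mul_of_nonneg_left (Ct_deriv_ge hx'.1 hx'.2) hε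
      linarith
  -- limit at 1
  have hlim : Filter.Tendsto (fun x => -(Real.log 2 / (x * ath x)) - ε * (1 / ath x))
      (nhdsWithin 1 (Set.Iio 1)) (nhds 0) := by
    have t1 : Filter.Tendsto (fun x : ℝ => (ath x)⁻¹) (nhdsWithin 1 (Set.Iio 1)) (nhds 0) :=
      tendsto_inv_atTop_zero.comp fode_tendsto_ath
    have t2 : Filter.Tendsto (fun x : ℝ => x⁻¹) (nhdsWithin 1 (Set.Iio 1)) (nhds 1) := by
      have : Filter.Tendsto (fun x : ℝ => x⁻¹) (nhds 1) (nhds (1 : ℝ)⁻¹) :=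
        (continuousAt_inv₀ one_ne_zero).tendsto
      rw [inv_one] at this
      exact this.mono_left nhdsWithin_le_nhds
    have t3 := ((t2.mul t1).const_mul (Real.log 2)).neg.sub (t1.const_mul ε)
    have e : -(Real.log 2 * (1 * 0)) - ε * 0 = (0 : ℝ) := by ring
    rw [e] at t3
    refine t3.congr ?_
    intro x
    rw [one_div, div_eq_mul_inv, mul_inv]
  have hc1 : ∀ x ∈ Set.Ico (8 / 25 : ℝ) 1, 0 ≤ V x / (x * ath x) - ε * Ct x := by
    intro x hx
    refine le_of_tendsto hlim ?_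
    have hmem : Set.Ioo x 1 ∈ nhdsWithin (1 : ℝ) (Set.Iio 1) := Ioo_mem_nhdsLT hx.2
    filter_upwards [hmem] with y hy
    have hyI : y ∈ Set.Ico (8 / 25 : ℝ) 1 := ⟨by linarith [hx.1, hy.1], hy.2⟩
    have hy0 := hsub hyI
    have b1 := hanti hx hyI hy.1.le
    simp only at b1
    have b2 : -(Real.log 2 / (y * ath y)) ≤ V y / (y * ath y) := by
      rw [← neg_div]
      refine div_le_div_of_nonneg_right ?_ (hden y hy0).le
      have := hlow y hy0
      have h' := hh_le (u := y)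
      linarith
    have b3 : Ct y ≤ 1 / ath y := by
      unfold Ct
      have c1 : 1 ≤ 1 / y := by
        rw [le_div_iff₀ hy0.1]; linarith [hy0.2]
      have := hy0.2
      linarith
    have b4 := mul_le_mul_of_nonneg_left b3 hε
    linarith
  have hc1' : ∀ x ∈ Set.Ico (8 / 25 : ℝ) 1, 0 ≤ V x / (x * ath x) := by
    intro x hx
    have := hc1 x hx
    have := mul_nonneg hε (Ct_nonneg hx.1 hx.2)
    linarith
  -- antitone on (0, 8/25]
  have hsub2 : Set.Ioc (0 : ℝ) (8 / 25) ⊆ Set.Ioo 0 1 := fun x hx => ⟨hx.1, by linarith [hx.2]⟩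
  have hanti2 : AntitoneOn (fun x => V x / (x * ath x)) (Set.Ioc (0 : ℝ) (8 / 25)) := by
    refine antitoneOn_of_deriv_nonpos (convex_Ioc _ _) ?_ ?_ ?_
    · exact fun x hx => (fode_hasDerivAt_c (hsub2 hx)
        (hd x (hsub2 hx))).continuousAt.continuousWithinAt
    · exact fun x hx => (fode_hasDerivAt_c (hsub2 (interior_subset hx))
        (hd x (hsub2 (interior_subset hx)))).differentiableAt.differentiableWithinAt
    · intro x hx
      have hx' := interior_subset hx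
      have hx0 := hsub2 hx'
      rw [(fode_hasDerivAt_c hx0 (hd x hx0)).deriv]
      have hp : 0 < x ^ 2 * ath x := mul_pos (pow_pos hx0.1 2) (ath_pos hx0.1 hx0.2)
      have a1 := h2 x hx0 hx'.2
      exact div_nonpos_of_nonpos_of_nonneg (by linarith) hp.le
  have hall : ∀ x ∈ Set.Ioo (0 : ℝ) 1, 0 ≤ V x / (x * ath x) := by
    intro x hx
    rcases le_total x (8 / 25) with hle | hge
    · have b := hanti2 ⟨hx.1, hle⟩ ⟨by norm_num, le_rfl⟩ hle
      exact (hc1' (8 / 25) ⟨le_rfl, by norm_num⟩).trans b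
    · exact hc1' x ⟨hge, hx.2⟩
  intro ρ hρ
  have h := mul_nonneg (hall ρ hρ) (hden ρ hρ).le
  rwa [div_mul_cancel₀ _ (hden ρ hρ).ne'] at h
end P322
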