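import Vale.Agent.P322.Full.FDefs
namespace P322

theorem mix_hhf {u : ℝ} (hp : 0 < 1 + u) (hm : 0 < 1 - u) :
    hh u = Real.log 2 - (1 + u) / 2 * Real.log (1 + u) - (1 - u) / 2 * Real.log (1 - u) := by
  unfold hh Real.binEntropy
  have e : 1 - (1 + u) / 2 = (1 - u) / 2 := by ring
  rw [e, Real.log_inv, Real.log_inv, Real.log_div hp.ne' two_ne_zero,
    Real.log_div hm.ne' two_ne_zero]
  ring

theorem mix_athf {u : ℝ} (hp : 0 < 1 + u) (hm : 0 < 1 - u) :
    ath u = (Real.log (1 + u) - Real.log (1 - u)) / 2 := by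
  unfold ath
  rw [Real.log_div hp.ne' hm.ne']

theorem mix_Ph {x M : ℝ} (hM : 0 < M) (hp : 0 < M + x) (hm : 0 < M - x) :
    Ph (x / M) = (M + x) / (2 * M) * (Real.log (M + x) - Real.log M)
      + (M - x) / (2 * M) * (Real.log (M - x) - Real.log M) := by
  have e1 : 1 + x / M = (M + x) / M := by field_simp
  have e2 : 1 - x / M = (M - x) / M := by field_simp
  have h1 : 0 < 1 + x / M := by rw [e1]; exact div_pos hp hM
  have h2 : 0 < 1 - x / M := by rw [e2]; exact div_pos hm hM
  unfold Ph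
  rw [mix_hhf h1 h2, e1, e2, Real.log_div hp.ne' hM.ne', Real.log_div hm.ne' hM.ne']
  field_simp
  ring

theorem mix_ath {x M : ℝ} (hM : 0 < M) (hp : 0 < M + x) (hm : 0 < M - x) :
    ath (x / M) = (Real.log (M + x) - Real.log (M - x)) / 2 := by
  have e1 : 1 + x / M = (M + x) / M := by field_simp
  have e2 : 1 - x / M = (M - x) / M := by field_simp
  have h1 : 0 < 1 + x / M := by rw [e1]; exact div_pos hp hM
  have h2 : 0 < 1 - x / M := by rw [e2]; exact div_pos hm hM
  rw [mix_athf h1 h2, e1, e2, Real.log_div hp.ne' hM.ne', Real.log_div hm.ne' hM.ne']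
  ring

theorem mix_hh {m d : ℝ} (hd : 0 < d) (hm : |m| + d < 1) :
    hh m - (hh (m + d) + hh (m - d)) / 2
      = (1 + m) / 2 * Ph (d / (1 + m)) + (1 - m) / 2 * Ph (d / (1 - m)) := by
  have h1 := le_abs_self m
  have h2 := neg_abs_le m
  have a1 : 0 < 1 + m := by linarith
  have a2 : 0 < 1 - m := by linarith
  have a3 : 0 < 1 + m + d := by linarith
  have a4 : 0 < 1 + m - d := by linarith
  have a5 : 0 < 1 - m + d := by linarith
  have a6 : 0 < 1 - m - d := by linarith
  have b1 : 1 + (m + d) = 1 + m + d := by ring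
  have b2 : 1 - (m + d) = 1 - m - d := by ring
  have b3 : 1 + (m - d) = 1 + m - d := by ring
  have b4 : 1 - (m - d) = 1 - m + d := by ring
  rw [mix_Ph a1 a3 a4, mix_Ph a2 a5 a6, mix_hhf a1 a2,
    mix_hhf (u := m + d) (by linarith) (by linarith),
    mix_hhf (u := m - d) (by linarith) (by linarith), b1, b2, b3, b4]
  field_simp
  ring

theorem mix_jj {m d : ℝ} (hd : 0 < d) (hm : |m| + d < 1) :
    jj (m + d) (m - d)
      = (1 + m) / 2 * (d / (1 + m) * ath (d / (1 + m)))
        + (1 - m) / 2 * (d / (1 - m) * ath (d / (1 - m))) := by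
  have h1 := le_abs_self m
  have h2 := neg_abs_le m
  have a1 : 0 < 1 + m := by linarith
  have a2 : 0 < 1 - m := by linarith
  have a3 : 0 < 1 + m + d := by linarith
  have a4 : 0 < 1 + m - d := by linarith
  have a5 : 0 < 1 - m + d := by linarith
  have a6 : 0 < 1 - m - d := by linarith
  have b1 : 1 + (m + d) = 1 + m + d := by ring
  have b2 : 1 - (m + d) = 1 - m - d := by ring
  have b3 : 1 + (m - d) = 1 + m - d := by ring
  have b4 : 1 - (m - d) = 1 - m + d := by ring
  unfold jj
  rw [mix_ath a1 a3 a4, mix_ath a2 a5 a6,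
    mix_athf (u := m + d) (by linarith) (by linarith),
    mix_athf (u := m - d) (by linarith) (by linarith), b1, b2, b3, b4]
  field_simp
  ring
end P322
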