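import Vale.Agent.P322.Full.QK
import Vale.Agent.P322.Full.CtNN
namespace P322
theorem Q_ineq {r : ℝ} (h0 : 8 / 25 ≤ r) (h1 : r < 1) :
    (1 - Real.log (1 - r ^ 2)) * ath r - r / (1 + r) ≤ (11 / 10 + 9 / 10 * r ^ 2) * ath r ^ 2 :=
  Q_ineq' h0 h1
theorem Ct_nonneg {r : ℝ} (h0 : 8 / 25 ≤ r) (h1 : r < 1) : 0 ≤ Ct r :=
  Ct_nonneg_aux h0 h1
end P322
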