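import Vale.Agent.P322.Full.FDefs
namespace P322

noncomputable def qk_K (r : ℝ) : ℝ :=
  2 * Real.log (1 + r) - 1 - 9 / 10 * ((1 - r ^ 2) * ath r) + r / ((1 + r) * ath r)

theorem qk_lb3 {s : ℝ} (h0 : 0 ≤ s) (h1 : s < 1) : s + s ^ 3 / 3 ≤ ath s := by
  have hd : ∀ x ∈ Set.Ioo (-1 : ℝ) 1, HasDerivAt (fun x => ath x - (x + x ^ 3 / 3))
      (1 / (1 - x ^ 2) - (1 + x ^ 2)) x := by
    intro x hx
    have h2 := (hasDerivAt_ath hx).sub ((hasDerivAt_id' x).add ((hasDerivAt_pow 3 x).div_const 3))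
    have e : 1 / (1 - x ^ 2) - (1 + ((3 : ℕ) : ℝ) * x ^ (3 - 1) / 3) = 1 / (1 - x ^ 2) - (1 + x ^ 2) := by
      norm_num
    rw [e] at h2
    exact h2
  have hmono : MonotoneOn (fun x => ath x - (x + x ^ 3 / 3)) (Set.Icc 0 s) := by
    refine monotoneOn_of_deriv_nonneg (convex_Icc 0 s) ?_ ?_ ?_
    · exact fun x hx => (hd x ⟨by linarith [hx.1], by linarith [hx.2]⟩).continuousAt.continuousWithinAt
    · intro x hx
      have hx' := interior_subset hx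
      exact (hd x ⟨by linarith [hx'.1], by linarith [hx'.2]⟩).differentiableAt.differentiableWithinAt
    · intro x hx
      have hx' := interior_subset hx
      rw [(hd x ⟨by linarith [hx'.1], by linarith [hx'.2]⟩).deriv]
      have hx2 : 0 < 1 - x ^ 2 := by nlinarith [hx'.1, hx'.2]
      rw [sub_nonneg, le_div_iff₀ hx2]
      nlinarith [sq_nonneg (x ^ 2)]
  have h3 := hmono (Set.left_mem_Icc.2 h0) (Set.right_mem_Icc.2 h0) h0
  have hz : ath 0 = 0 := by unfold ath; simp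
  simp only [hz] at h3
  norm_num at h3
  linarith

theorem qk_logid {r : ℝ} (hr : r ∈ Set.Ioo (0 : ℝ) 1) :
    -Real.log (1 - r ^ 2) = 2 * ath r - 2 * Real.log (1 + r) := by
  have h1 : (0 : ℝ) < 1 + r := by linarith [hr.1]
  have h2 : (0 : ℝ) < 1 - r := by linarith [hr.2]
  have e : 1 - r ^ 2 = (1 + r) * (1 - r) := by ring
  rw [e, Real.log_mul h1.ne' h2.ne']
  unfold ath
  rw [Real.log_div h1.ne' h2.ne']
  ring

theorem qk_hasDerivAt {r : ℝ} (hr : r ∈ Set.Ioo (0 : ℝ) 1) :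
    HasDerivAt qk_K (2 / (1 + r) - 9 / 10 * (1 - 2 * r * ath r)
      + ((1 / (1 + r) ^ 2) * ath r - r / ((1 + r) * (1 - r ^ 2))) / ath r ^ 2) r := by
  have h1 : (0 : ℝ) < 1 + r := by linarith [hr.1]
  have h2 : (0 : ℝ) < 1 - r ^ 2 := by nlinarith [hr.1, hr.2]
  have hz : 0 < ath r := ath_pos hr.1 hr.2
  have ha := hasDerivAt_ath (u := r) ⟨by linarith [hr.1], hr.2⟩
  have d1 : HasDerivAt (fun r : ℝ => 1 + r) 1 r := by
    simpa using (hasDerivAt_id r).const_add 1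
  have dl := (d1.log h1.ne').const_mul 2
  have dq : HasDerivAt (fun r : ℝ => 1 - r ^ 2) (-(2 * r)) r := by
    have := (hasDerivAt_pow 2 r).const_sub 1
    simpa using this
  have dp := (dq.mul ha).const_mul (9 / 10 : ℝ)
  have dden := d1.mul ha
  have dfr := (hasDerivAt_id' r).div dden (mul_pos h1 hz).ne'
  have h := ((dl.sub_const 1).sub dp).add dfr
  have e : 2 * (1 / (1 + r)) - 9 / 10 * (-(2 * r) * ath r + (1 - r ^ 2) * (1 / (1 - r ^ 2)))
      + (1 * ((1 + r) * ath r) - r * (1 * ath r + (1 + r) * (1 / (1 - r ^ 2)))) / ((1 + r) * ath r) ^ 2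
      = 2 / (1 + r) - 9 / 10 * (1 - 2 * r * ath r)
      + ((1 / (1 + r) ^ 2) * ath r - r / ((1 + r) * (1 - r ^ 2))) / ath r ^ 2 := by
    field_simp
    ring
  rw [← e]
  exact h

theorem qk_N2 {r : ℝ} (h0 : 8 / 25 ≤ r) (h1 : r ≤ 9 / 10) :
    0 ≤ 1/10 - 17/30*r + 11/10*r^2 + 21/10*r^3 - 11/15*r^4 + 3/5*r^5 - 9/5*r^6 - 9/5*r^7 := by
  rcases le_total r (7/10) with h | h
  · have h3 : 0 ≤ 21/10 - 11/15*r + 3/5*r^2 - 9/5*r^3 - 9/5*r^4 := by
      have e2 : r^2 ≤ 49/100 := by nlinarith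
      have e3 : r^3 ≤ 343/1000 := by nlinarith [mul_nonneg (sq_nonneg r) (sub_nonneg.2 h)]
      have e4 : r^4 ≤ 2401/10000 := by nlinarith [mul_nonneg (pow_nonneg (by linarith : (0:ℝ) ≤ r) 3) (sub_nonneg.2 h)]
      nlinarith [sq_nonneg r]
    have h4 : 0 ≤ r^3 := by positivity
    nlinarith [mul_nonneg h4 h3, sq_nonneg (r - 17/66)]
  · -- r in [7/10, 9/10]
    have hr0 : (0:ℝ) ≤ r := by linarith
    have a : 0 ≤ r - 7/10 := by linarith
    have b : 0 ≤ 9/10 - r := by linarith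
    obtain ⟨x, hx⟩ : ∃ x, x = r - 7/10 := ⟨_, rfl⟩
    have hr : r = 7/10 + x := by linarith
    have hx0 : 0 ≤ x := by linarith
    have hx1 : x ≤ 1/5 := by linarith
    subst hr
    nlinarith [pow_nonneg hx0 2, pow_nonneg hx0 3, pow_nonneg hx0 4, pow_nonneg hx0 5, pow_nonneg hx0 6, mul_nonneg hx0 (sub_nonneg.2 hx1), mul_nonneg (pow_nonneg hx0 2) (sub_nonneg.2 hx1), mul_nonneg (pow_nonneg hx0 3) (sub_nonneg.2 hx1), mul_nonneg (pow_nonneg hx0 4) (sub_nonneg.2 hx1), mul_nonneg (pow_nonneg hx0 5) (sub_nonneg.2 hx1), mul_nonneg (pow_nonneg hx0 6) (sub_nonneg.2 hx1)]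

theorem qk_N1 {r : ℝ} (h0 : 8 / 25 ≤ r) (h1 : r ≤ 9 / 10) :
    0 ≤ (11 / 10 - 9 / 10 * r) * (1 - r ^ 2) * (1 + r ^ 2 / 3) ^ 2
      + 9 / 5 * r ^ 2 * (1 + r) * (1 - r ^ 2) * (1 + r ^ 2 / 3) ^ 3 - 1 + r / 3 - r ^ 2 / 3 := by
  have hN := qk_N2 h0 h1
  have hr0 : (0:ℝ) ≤ r := by linarith
  have hq : 0 ≤ 1 - r ^ 2 := by nlinarith
  have hc1 : 0 ≤ (11 / 10 - 9 / 10 * r) * (1 - r ^ 2) := mul_nonneg (by linarith) hq
  have hc2 : 0 ≤ 9 / 5 * r ^ 2 * (1 + r) * (1 - r ^ 2) := by positivity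
  have p2 : 1 + 2 * r ^ 2 / 3 ≤ (1 + r ^ 2 / 3) ^ 2 := by nlinarith [sq_nonneg (r^2)]
  have p3 : 1 + r ^ 2 ≤ (1 + r ^ 2 / 3) ^ 3 := by nlinarith [sq_nonneg (r^2), pow_nonneg hr0 6]
  have m1 := mul_le_mul_of_nonneg_left p2 hc1
  have m2 := mul_le_mul_of_nonneg_left p3 hc2
  have e : (11 / 10 - 9 / 10 * r) * (1 - r ^ 2) * (1 + 2 * r ^ 2 / 3)
      + 9 / 5 * r ^ 2 * (1 + r) * (1 - r ^ 2) * (1 + r ^ 2) - 1 + r / 3 - r ^ 2 / 3
      = 1/10 - 17/30*r + 11/10*r^2 + 21/10*r^3 - 11/15*r^4 + 3/5*r^5 - 9/5*r^6 - 9/5*r^7 := by ring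
  linarith

theorem qk_ub5 {s : ℝ} (h0 : 0 ≤ s) (h1 : s < 1) :
    ath s ≤ s + s ^ 3 / 3 + s ^ 5 / (5 * (1 - s ^ 2)) := by
  have hd : ∀ x ∈ Set.Ioo (-1 : ℝ) 1, HasDerivAt
      (fun x => x + x ^ 3 / 3 + x ^ 5 / (5 * (1 - x ^ 2)) - ath x)
      (2 / 5 * x ^ 6 / (1 - x ^ 2) ^ 2) x := by
    intro x hx
    have hq : 0 < 1 - x ^ 2 := by nlinarith [hx.1, hx.2]
    have dq : HasDerivAt (fun r : ℝ => 5 * (1 - r ^ 2)) (5 * (-(2 * x))) x := by
      have := ((hasDerivAt_pow 2 x).const_sub 1).const_mul 5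
      simpa using this
    have h2 := (((hasDerivAt_id' x).add ((hasDerivAt_pow 3 x).div_const 3)).add
      ((hasDerivAt_pow 5 x).div dq (by positivity))).sub (hasDerivAt_ath hx)
    have e : 1 + ((3 : ℕ) : ℝ) * x ^ (3 - 1) / 3
        + (((5 : ℕ) : ℝ) * x ^ (5 - 1) * (5 * (1 - x ^ 2)) - x ^ 5 * (5 * (-(2 * x)))) / (5 * (1 - x ^ 2)) ^ 2
        - 1 / (1 - x ^ 2) = 2 / 5 * x ^ 6 / (1 - x ^ 2) ^ 2 := by
      field_simp
      norm_num
      ring
    rw [e] at h2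
    exact h2
  have hmono : MonotoneOn (fun x => x + x ^ 3 / 3 + x ^ 5 / (5 * (1 - x ^ 2)) - ath x)
      (Set.Icc 0 s) := by
    refine monotoneOn_of_deriv_nonneg (convex_Icc 0 s) ?_ ?_ ?_
    · exact fun x hx => (hd x ⟨by linarith [hx.1], by linarith [hx.2]⟩).continuousAt.continuousWithinAt
    · intro x hx
      have hx' := interior_subset hx
      exact (hd x ⟨by linarith [hx'.1], by linarith [hx'.2]⟩).differentiableAt.differentiableWithinAt
    · intro x hx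
      have hx' := interior_subset hx
      rw [(hd x ⟨by linarith [hx'.1], by linarith [hx'.2]⟩).deriv]
      positivity
  have h3 := hmono (Set.left_mem_Icc.2 h0) (Set.right_mem_Icc.2 h0) h0
  have hz : ath 0 = 0 := by unfold ath; simp
  simp only [hz] at h3
  norm_num at h3
  linarith

theorem qk_K_base : 0 ≤ qk_K (8 / 25) := by
  have h1 := qk_lb3 (s := 8 / 25) (by norm_num) (by norm_num)
  have h2 := qk_ub5 (s := 8 / 25) (by norm_num) (by norm_num)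
  norm_num at h1 h2
  have h3 := qk_lb3 (s := 4 / 29) (by norm_num) (by norm_num)
  have h4 : Real.log (1 + 8 / 25) = 2 * ath (4 / 29) := by
    unfold ath; norm_num; ring
  unfold qk_K
  rw [h4]
  norm_num at h3
  have hz : 0 < ath (8 / 25) := ath_pos (by norm_num) (by norm_num)
  have h5 : (8 / 25 : ℝ) / ((1 + 8 / 25) * ath (8 / 25)) = 8 / 33 / ath (8 / 25) := by
    field_simp; norm_num
  rw [h5]
  have h6 : 8 / 33 / (3317 / 10000 : ℝ) ≤ 8 / 33 / ath (8 / 25) := by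
    apply div_le_div_of_nonneg_left (by norm_num) hz
    linarith
  norm_num at h6 ⊢
  linarith

theorem qk_K_mono : MonotoneOn qk_K (Set.Icc (8 / 25) (9 / 10)) := by
  have hI : ∀ x ∈ Set.Icc (8 / 25 : ℝ) (9 / 10), x ∈ Set.Ioo (0 : ℝ) 1 := fun x hx =>
    ⟨by linarith [hx.1], by linarith [hx.2]⟩
  refine monotoneOn_of_deriv_nonneg (convex_Icc _ _) ?_ ?_ ?_
  · exact fun x hx => (qk_hasDerivAt (hI x hx)).continuousAt.continuousWithinAt
  · intro x hx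
    exact (qk_hasDerivAt (hI x (interior_subset hx))).differentiableAt.differentiableWithinAt
  · intro r hx
    have hx' := interior_subset hx
    have hr := hI r hx'
    rw [(qk_hasDerivAt hr).deriv]
    have hz : 0 < ath r := ath_pos hr.1 hr.2
    have hq : 0 < 1 - r ^ 2 := by nlinarith [hr.1, hr.2]
    have hp : 0 < 1 + r := by linarith [hr.1]
    have hN := qk_N1 hx'.1 hx'.2
    have hlb := qk_lb3 hr.1.le hr.2
    have hy0 : 0 ≤ r + r ^ 3 / 3 := by have := hr.1; positivity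
    have c1 : 0 ≤ 11 / 10 - 9 / 10 * r := by linarith [hx'.2]
    have hr0 := hr.1
    have z2 : (r + r ^ 3 / 3) ^ 2 ≤ ath r ^ 2 := pow_le_pow_left₀ hy0 hlb 2
    have z3 : (r + r ^ 3 / 3) ^ 3 ≤ ath r ^ 3 := pow_le_pow_left₀ hy0 hlb 3
    have m2 := mul_le_mul_of_nonneg_left z2 (mul_nonneg c1 hq.le)
    have m3 := mul_le_mul_of_nonneg_left z3 (show (0:ℝ) ≤ 9 / 5 * r * (1 + r) * (1 - r ^ 2) by positivity)
    have m1 := mul_le_mul_of_nonneg_left hlb (show (0:ℝ) ≤ 1 - r by linarith [hr.2])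
    have hNr := mul_nonneg (sq_nonneg r) hN
    have hP : 0 ≤ (11 / 10 - 9 / 10 * r) * (1 - r ^ 2) * ath r ^ 2
        + 9 / 5 * r * (1 + r) * (1 - r ^ 2) * ath r ^ 3 + (1 - r) * ath r - r := by
      have e : r ^ 2 * ((11 / 10 - 9 / 10 * r) * (1 - r ^ 2) * (1 + r ^ 2 / 3) ^ 2
        + 9 / 5 * r ^ 2 * (1 + r) * (1 - r ^ 2) * (1 + r ^ 2 / 3) ^ 3 - 1 + r / 3 - r ^ 2 / 3)
        = (11 / 10 - 9 / 10 * r) * (1 - r ^ 2) * (r + r ^ 3 / 3) ^ 2
        + 9 / 5 * r * (1 + r) * (1 - r ^ 2) * (r + r ^ 3 / 3) ^ 3 + (1 - r) * (r + r ^ 3 / 3) - r := by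
        ring
      linarith
    have e : 2 / (1 + r) - 9 / 10 * (1 - 2 * r * ath r)
      + ((1 / (1 + r) ^ 2) * ath r - r / ((1 + r) * (1 - r ^ 2))) / ath r ^ 2
      = ((11 / 10 - 9 / 10 * r) * (1 - r ^ 2) * ath r ^ 2
        + 9 / 5 * r * (1 + r) * (1 - r ^ 2) * ath r ^ 3 + (1 - r) * ath r - r)
        / ((1 + r) * (1 - r ^ 2) * ath r ^ 2) := by
      field_simp
      ring
    rw [e]
    exact div_nonneg hP (by positivity)

theorem qk_anti : AntitoneOn (fun r : ℝ => (1 - r ^ 2) * ath r) (Set.Ico (9 / 10) 1) := by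
  have hI : ∀ x ∈ Set.Ico (9 / 10 : ℝ) 1, x ∈ Set.Ioo (0 : ℝ) 1 := fun x hx =>
    ⟨by linarith [hx.1], hx.2⟩
  have hd : ∀ x ∈ Set.Ico (9 / 10 : ℝ) 1, HasDerivAt (fun r : ℝ => (1 - r ^ 2) * ath r)
      (-(2 * x) * ath x + (1 - x ^ 2) * (1 / (1 - x ^ 2))) x := by
    intro x hx
    have hx' := hI x hx
    have dq : HasDerivAt (fun r : ℝ => 1 - r ^ 2) (-(2 * x)) x := by
      have := (hasDerivAt_pow 2 x).const_sub 1
      simpa using this
    exact dq.mul (hasDerivAt_ath (u := x) ⟨by linarith [hx'.1], hx'.2⟩)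
  refine antitoneOn_of_deriv_nonpos (convex_Ico _ _) ?_ ?_ ?_
  · exact fun x hx => (hd x hx).continuousAt.continuousWithinAt
  · intro x hx
    exact (hd x (interior_subset hx)).differentiableAt.differentiableWithinAt
  · intro x hx
    have hx' := interior_subset hx
    rw [(hd x hx').deriv]
    have hq : 0 < 1 - x ^ 2 := by nlinarith [hx'.1, hx'.2]
    have h1 := le_ath (s := x) (by linarith [hx'.1]) hx'.2
    rw [mul_one_div_cancel hq.ne']
    nlinarith [hx'.1, hx'.2]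

theorem qk_K_nonneg {r : ℝ} (h0 : 8 / 25 ≤ r) (h1 : r < 1) : 0 ≤ qk_K r := by
  rcases le_total r (9 / 10) with h | h
  · have := qk_K_mono ⟨le_rfl, by norm_num⟩ ⟨h0, h⟩ h0
    exact le_trans qk_K_base this
  · have ha := qk_anti ⟨le_rfl, by norm_num⟩ ⟨h, h1⟩ h
    simp only at ha
    have hz : 0 < ath r := ath_pos (by linarith) h1
    have h3 := qk_lb3 (s := 9 / 29) (by norm_num) (by norm_num)
    have h4 : Real.log (1 + 9 / 10) = 2 * ath (9 / 29) := by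
      unfold ath; norm_num; ring
    have h5 : Real.log (1 + 9 / 10) ≤ Real.log (1 + r) :=
      Real.log_le_log (by norm_num) (by linarith)
    have h6 : ath (9 / 10) ≤ 149 / 100 := by
      have e : ath (9 / 10) = (4 * Real.log 2 + Real.log (19 / 16)) / 2 := by
        unfold ath
        have : ((1 + 9 / 10) / (1 - 9 / 10) : ℝ) = 2 ^ 4 * (19 / 16) := by norm_num
        rw [this, Real.log_mul (by norm_num) (by norm_num), Real.log_pow]
        norm_num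
      rw [e]
      have l1 := Real.log_two_lt_d9
      have l2 := Real.log_le_sub_one_of_pos (show (0 : ℝ) < 19 / 16 by norm_num)
      linarith
    have h7 : 0 ≤ r / ((1 + r) * ath r) := by positivity
    unfold qk_K
    norm_num at h3
    rw [h4] at h5
    nlinarith

theorem Q_ineq' {r : ℝ} (h0 : 8 / 25 ≤ r) (h1 : r < 1) :
    (1 - Real.log (1 - r ^ 2)) * ath r - r / (1 + r) ≤ (11 / 10 + 9 / 10 * r ^ 2) * ath r ^ 2 := by
  have hr : r ∈ Set.Ioo (0 : ℝ) 1 := ⟨by linarith, h1⟩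
  have hz : 0 < ath r := ath_pos hr.1 hr.2
  have hK := mul_nonneg hz.le (qk_K_nonneg h0 h1)
  have hid := qk_logid hr
  have e : ath r * qk_K r = (11 / 10 + 9 / 10 * r ^ 2) * ath r ^ 2
      - ((1 + (2 * ath r - 2 * Real.log (1 + r))) * ath r - r / (1 + r)) := by
    unfold qk_K
    have : (0 : ℝ) < 1 + r := by linarith
    field_simp
    ring
  rw [e, ← hid] at hK
  linarith
end P322
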