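import Vale.Agent.P322.Full.Cross
namespace P322

theorem RtLem_pos : 0 < Ph (8 / 25) := Ph_pos (by norm_num) (by norm_num)

theorem RtLem_lt {D : ℝ} (h : D < Ph (8 / 25)) : Rt D = RR (Real.log 2 - D) := by
  unfold Rt; rw [if_pos h]

theorem RtLem_ge {D : ℝ} (h : Ph (8 / 25) ≤ D) :
    Rt D = Rs (8 / 25) + rr (8 / 25) * (D - Ph (8 / 25)) := by
  unfold Rt; rw [if_neg (not_lt.mpr h)]

theorem RtLem_mem : (8 / 25 : ℝ) ∈ Set.Ioo (0 : ℝ) 1 := by norm_num

/-- every `D` between `0` and `Φ(8/25)` is a value of `Φ` -/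
theorem RtLem_exists {D : ℝ} (h0 : 0 < D) (h1 : D < Ph (8 / 25)) :
    ∃ s, 0 < s ∧ s < 8 / 25 ∧ Ph s = D := by
  have h2 : 0 ≤ hh (8 / 25) := hh_nonneg (by norm_num)
  have h3 : 0 < Real.log 2 - D := by unfold Ph at h1; linarith
  obtain ⟨s, hs, hsD⟩ := exists_hh h3 (by linarith)
  have h4 : Ph s = D := by unfold Ph; linarith
  refine ⟨s, hs.1, ?_, h4⟩
  by_contra h
  push Not at h
  have h5 := Ph_strictMono.monotoneOn (a := 8 / 25) (b := s) (by norm_num) ⟨hs.1.le, hs.2.le⟩ h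
  linarith

theorem RtLem_at {s : ℝ} (h0 : 0 < s) (h1 : s < 8 / 25) : Rt (Ph s) = Rs s := by
  have h2 : Ph s < Ph (8 / 25) :=
    Ph_strictMono ⟨h0.le, by linarith⟩ (by norm_num) h1
  rw [RtLem_lt h2]
  have h3 : Real.log 2 - Ph s = hh s := by unfold Ph; ring
  rw [h3, RR_hh ⟨h0, by linarith⟩]

theorem Rt_zero : Rt 0 = 0 := by
  rw [RtLem_lt RtLem_pos]
  exact RR_zero (by linarith)

theorem Rt_nonneg (D : ℝ) : 0 ≤ Rt D := by
  by_cases h : D < Ph (8 / 25)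
  · rw [RtLem_lt h]
    exact RR_nonneg _
  · push Not at h
    rw [RtLem_ge h]
    have h1 := Rs_nonneg RtLem_mem
    have h2 := rr_nonneg RtLem_mem
    have h3 : 0 ≤ D - Ph (8 / 25) := by linarith
    positivity

theorem Rt_line {s : ℝ} (h0 : 0 < s) (h1 : s ≤ 8 / 25) (D : ℝ) :
    Rs s + rr s * (D - Ph s) ≤ Rt D := by
  have hs : s ∈ Set.Ioo (0 : ℝ) 1 := ⟨h0, by linarith⟩
  by_cases h : D < Ph (8 / 25)
  · rw [RtLem_lt h]
    have h2 : 0 ≤ hh (8 / 25) := hh_nonneg (by norm_num)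
    have h3 : 0 < Real.log 2 - D := by unfold Ph at h; linarith
    have h4 := RR_line hs h3
    have h5 : Rs s + rr s * (D - Ph s) = Rs s - rr s * (Real.log 2 - D - hh s) := by
      unfold Ph; ring
    rw [h5]
    exact h4
  · push Not at h
    rw [RtLem_ge h]
    have h2 := Rs_line hs RtLem_mem
    have h3 := rr_monotoneOn hs RtLem_mem h1
    have h4 : 0 ≤ D - Ph (8 / 25) := by linarith
    have h5 := mul_le_mul_of_nonneg_right h3 h4
    have h6 : Rs s + rr s * (D - Ph s) =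
        (Rs s - rr s * (hh (8 / 25) - hh s)) + rr s * (D - Ph (8 / 25)) := by
      unfold Ph; ring
    rw [h6]
    linarith

/-- every point has a supporting line (either `0` or `Rs s + rr s (D - Φ s)`) -/
theorem Rt_attained (D : ℝ) : Rt D = 0 ∨
    ∃ s, 0 < s ∧ s ≤ 8 / 25 ∧ Rt D = Rs s + rr s * (D - Ph s) := by
  rcases le_or_gt D 0 with h | h
  · left
    rw [RtLem_lt (lt_of_le_of_lt h RtLem_pos)]
    exact RR_zero (by linarith)
  · right
    by_cases h1 : D < Ph (8 / 25)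
    · obtain ⟨s, hs0, hs1, hsD⟩ := RtLem_exists h h1
      refine ⟨s, hs0, hs1.le, ?_⟩
      rw [← hsD, RtLem_at hs0 hs1]
      ring
    · push Not at h1
      exact ⟨8 / 25, by norm_num, le_rfl, RtLem_ge h1⟩

theorem Rt_lip (D : ℝ) {δ : ℝ} (hδ : 0 ≤ δ) : Rt (D + δ) ≤ Rt D + rr (8 / 25) * δ := by
  rcases Rt_attained (D + δ) with h | ⟨s, hs0, hs1, h⟩
  · rw [h]
    have h1 := Rt_nonneg D
    have h2 := rr_nonneg RtLem_mem
    positivity
  · rw [h]
    have h1 := Rt_line hs0 hs1 D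
    have h2 := rr_monotoneOn (⟨hs0, by linarith⟩ : s ∈ Set.Ioo (0 : ℝ) 1) RtLem_mem hs1
    have h3 := mul_le_mul_of_nonneg_right h2 hδ
    have h4 : Rs s + rr s * (D + δ - Ph s) = Rs s + rr s * (D - Ph s) + rr s * δ := by ring
    rw [h4]
    linarith

theorem Rt_conv (D1 D2 : ℝ) : Rt ((D1 + D2) / 2) ≤ (Rt D1 + Rt D2) / 2 := by
  rcases Rt_attained ((D1 + D2) / 2) with h | ⟨s, hs0, hs1, h⟩
  · rw [h]
    have h1 := Rt_nonneg D1
    have h2 := Rt_nonneg D2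
    linarith
  · rw [h]
    have h1 := Rt_line hs0 hs1 D1
    have h2 := Rt_line hs0 hs1 D2
    have h4 : Rs s + rr s * ((D1 + D2) / 2 - Ph s) =
        ((Rs s + rr s * (D1 - Ph s)) + (Rs s + rr s * (D2 - Ph s))) / 2 := by ring
    rw [h4]
    linarith

theorem RtLem_Ph_le {x : ℝ} (hx : x ∈ Set.Ioo (0 : ℝ) 1) : Rt (Ph x) ≤ Rs x := by
  rcases Rt_attained (Ph x) with h | ⟨s, hs0, hs1, h⟩
  · rw [h]
    exact Rs_nonneg hx
  · rw [h]
    have h1 := Rs_line (⟨hs0, by linarith⟩ : s ∈ Set.Ioo (0 : ℝ) 1) hx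
    have h2 : Rs s + rr s * (Ph x - Ph s) = Rs s - rr s * (hh x - hh s) := by
      unfold Ph; ring
    rw [h2]
    exact h1

theorem Rt_cross {x t : ℝ} (hx : x ∈ Set.Ioo (0 : ℝ) 1) (ht : 0 ≤ t) :
    Rt (Ph x + t) ≤ Rs x + x ^ 2 / (1 + x ^ 2) * t + Rt t := by
  have hx0 := hx.1
  have hx1 := hx.2
  rcases le_or_gt (8 / 25) x with hc | hc
  · have h1 := Rt_lip (Ph x) ht
    have h2 := RtLem_Ph_le hx
    have h3 := mul_le_mul_of_nonneg_right (rr_kappa hc hx1) ht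
    have h4 := Rt_nonneg t
    linarith
  · have hk := mul_le_mul_of_nonneg_right (Ph_kappa hx0 hc.le) ht
    have hPx : 0 < Ph x := Ph_pos hx0 hx1.le
    have hPx2 : Ph x < Ph (8 / 25) := Ph_strictMono ⟨hx0.le, hx1.le⟩ (by norm_num) hc
    rcases ht.eq_or_lt with h0 | h0
    · rw [← h0, add_zero, mul_zero, add_zero, Rt_zero, add_zero]
      exact RtLem_Ph_le hx
    by_cases h : Ph x + t < Ph (8 / 25)
    · obtain ⟨s, hs0, hs1, hsD⟩ := RtLem_exists (by linarith : 0 < Ph x + t) h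
      obtain ⟨y, hy0, hy1, hyD⟩ := RtLem_exists h0 (by linarith : t < Ph (8 / 25))
      have h1 := Rs_cross hx0 hy0 hs0 hs1.le hx1 (by linarith) (by rw [hsD, hyD])
      rw [← hsD, RtLem_at hs0 hs1]
      have h2 : Rt t = Rs y := by rw [← hyD, RtLem_at hy0 hy1]
      rw [h2]
      rw [hyD] at h1
      linarith
    · push Not at h
      have ht0 : 0 < Ph (8 / 25) - Ph x := by linarith
      obtain ⟨y, hy0, hy1, hyD⟩ := RtLem_exists ht0 (by linarith)
      have h1 := Rs_cross hx0 hy0 (by norm_num : (0 : ℝ) < 8 / 25) le_rfl hx1 (by linarith)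
        (by rw [hyD]; ring)
      rw [RtLem_ge h]
      have h2 := rr_lip hy0 hy1.le le_rfl
      have h3 := Rt_line hy0 hy1.le t
      have h4 : 0 ≤ Ph x + t - Ph (8 / 25) := by linarith
      have h5 := mul_le_mul_of_nonneg_right h2 h4
      rw [hyD] at h1 h5 h3
      have h6 : rr (8 / 25) * (Ph x + t - Ph (8 / 25)) ≤
          rr y * (Ph x + t - Ph (8 / 25)) + 8 / 5 * Ph x * (Ph x + t - Ph (8 / 25)) := by
        have e1 : (rr (8 / 25) - rr y) * (Ph x + t - Ph (8 / 25)) =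
          rr (8 / 25) * (Ph x + t - Ph (8 / 25)) - rr y * (Ph x + t - Ph (8 / 25)) := by ring
        have e2 : 8 / 5 * (Ph (8 / 25) - (Ph (8 / 25) - Ph x)) * (Ph x + t - Ph (8 / 25)) =
          8 / 5 * Ph x * (Ph x + t - Ph (8 / 25)) := by ring
        linarith
      have e3 : rr y * (t - (Ph (8 / 25) - Ph x)) = rr y * (Ph x + t - Ph (8 / 25)) := by ring
      have e4 : 8 / 5 * (Ph x * (Ph (8 / 25) - Ph x)) +
        8 / 5 * Ph x * (Ph x + t - Ph (8 / 25)) = 8 / 5 * Ph x * t := by ring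
      linarith

theorem rr_825_le : rr (8 / 25) ≤ 2 := by
  unfold rr
  have h1 : (8 / 25 : ℝ) ≤ ath (8 / 25) := le_ath (by norm_num) (by norm_num)
  have h2 : (0 : ℝ) < (1 - (8 / 25) ^ 2) * ath (8 / 25) := by
    have : (0 : ℝ) < 1 - (8 / 25) ^ 2 := by norm_num
    have h3 : (0 : ℝ) < ath (8 / 25) := by linarith
    positivity
  have h3 : 8 / 25 / ((1 - (8 / 25 : ℝ) ^ 2) * ath (8 / 25)) ≤ 3 := by
    rw [div_le_iff₀ h2]
    nlinarith
  linarith
end P322
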